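import Vale.Agent.P280Z.Br.Cd
import Vale.Agent.P280Z.Cv.Sk
import Vale.Agent.P281Z.Mf.An
import Vale.Agent.P281Z.Mf.Loc
import Vale.Agent.P277Z.Slc.Adj

/-!
# P280, bridge: the cone over an embedded manifold
-/

open scoped Manifold ContDiff Topology Matrix
open MvPolynomial Set Filter Function
open Vale.Agent.P272.K Vale.Agent.P285.H281.FD Vale.Agent.P281Z
open Vale.Agent.P277Z (Hol at_chart)
open Vale.Agent.P277Z.Slc (dd)
open Vale.Agent.P280Z.Mp (In Jm)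

set_option linter.unusedSectionVars false

noncomputable section

namespace Vale.Agent.P280Z.Br

variable {n N : ℕ}

theorem pl_chg (α : Fin (n + 1) → Fin N) (v : Fin N → ℂ) (ξ : Fin n → Fin N → ℂ) (c : ℂ)
    (M : Matrix (Fin n) (Fin n) ℂ) (t : Fin n → ℂ) :
    pl α (c • v) (fun b => ∑ j, M j b • ξ j + t b • v) = c * M.det * pl α v ξ := by
  let T : Matrix (Fin (n + 1)) (Fin (n + 1)) ℂ :=
    Matrix.of (Fin.cons (Fin.cons c t) fun j => Fin.cons 0 (M j))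
  have h : T.det = c * M.det := by
    rw [Matrix.det_succ_column_zero, Fin.sum_univ_succ, Finset.sum_eq_zero fun b _ => by simp [T],
      show T.submatrix (Fin.succAbove 0) Fin.succ = M from Matrix.ext fun b a => by simp [T]]
    simp [T]
  rw [← h, mul_comm, pl, pl, ← Matrix.det_mul]
  congr 1
  ext b a
  refine Fin.cases ?_ (fun a => ?_) a <;>
    simp [T, Matrix.mul_apply, Fin.sum_univ_succ, mul_comm, add_comm]

theorem pick {ι : Type} {e : ℕ} (φ : ι → Cm e) (h : ∀ t, (∀ c, φ c ⬝ᵥ t = 0) → t = 0) :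
    ∃ s : Fin e → ι, (Matrix.of fun l => φ (s l)).det ≠ 0 := by
  obtain ⟨κ, s, -, h1, h2⟩ := exists_linearIndependent' ℂ φ
  have h3 : ⊤ ≤ Submodule.span ℂ (range (φ ∘ s)) := by
    by_contra hc
    obtain ⟨f, k1, k2⟩ := Submodule.exists_le_ker_of_lt_top _ (lt_top_iff_ne_top.2
      fun k => hc k.ge)
    obtain ⟨t, rfl⟩ := (dotProductEquiv ℂ (Fin e)).surjective f
    refine k1 ?_
    rw [h t fun c => (dotProduct_comm _ _).trans
      (k2 (h1 ▸ Submodule.subset_span (mem_range_self c))), map_zero]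
  let σ := (Module.Basis.mk h2 h3).indexEquiv (Pi.basisFun ℂ (Fin e))
  exact ⟨fun l => s (σ.symm l), ((Matrix.isUnit_iff_isUnit_det _).1
    (Matrix.linearIndependent_rows_iff_isUnit.1 (h2.comp _ σ.symm.injective))).ne_zero⟩

section

variable {X : Type} [TopologicalSpace X] [ChartedSpace (Cm n) X] {s : X → Cm N} {e : Chart n X}
  {x : X}

/-- the derivative of a lift -/
def ds (s : X → Cm N) (e : Chart n X) (x : X) (v : Cm n) : Cm N :=
  fun i => dd (fun y => s y i) e x v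

/-- the Plücker coordinates of a lift -/
def om (α : Fin (n + 1) → Fin N) (s : X → Cm N) (e : Chart n X) (x : X) : ℂ :=
  pl α (s x) fun b => ds s e x (Pi.single b 1)

theorem ds_sum (s : X → Cm N) (e : Chart n X) (x : X) (v : Cm n) :
    ds s e x v = ∑ j, v j • ds s e x (Pi.single j 1) :=
  funext fun i => (P277Z.Slc.Adj.clm_apply _ v).trans (by rw [Finset.sum_apply]; rfl)

theorem ds_fd (h : AnV n s x) (he : At e x) (v : Cm n) :
    fderiv ℂ (fun z => s (e.symm z)) (e x) v = ds s e x v := by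
  rw [fderiv_pi fun a => (h.hol a e he).differentiableAt]
  rfl

theorem om_mv (α : Fin (n + 1) → Fin N) (t : ℂ) (v : Cm n) :
    (Matrix.of fun b a : Fin (n + 1) => (Fin.cons (s x) fun b => ds s e x (Pi.single b 1) :
      Fin (n + 1) → Fin N → ℂ) a (α b)) *ᵥ Fin.cons t v = fun b => (ds s e x v + t • s x) (α b) := by
  funext b
  rw [ds_sum s e x v]
  simp [Matrix.mulVec, dotProduct, Fin.sum_univ_succ, mul_comm, add_comm]

theorem om_inj {α : Fin (n + 1) → Fin N} (h : om α s e x ≠ 0) {t : ℂ} {v : Cm n}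
    (k : ∀ b, (ds s e x v + t • s x) (α b) = 0) : v = 0 := by
  have := Matrix.eq_zero_of_mulVec_eq_zero h ((om_mv α t v).trans (funext k))
  exact funext fun a => congrFun this a.succ

theorem om_surj {α : Fin (n + 1) → Fin N} (h : om α s e x ≠ 0) (θ : Fin (n + 1) → ℂ) :
    ∃ (v : Cm n) (t : ℂ), ∀ b, (ds s e x v + t • s x) (α b) = θ b := by
  obtain ⟨w, hw⟩ := Matrix.mulVec_surjective_iff_isUnit.2
    ((Matrix.isUnit_iff_isUnit_det _).2 h.isUnit) θ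
  exact ⟨Fin.tail w, w 0, congrFun ((om_mv α _ _).symm.trans (by rwa [Fin.cons_self_tail]))⟩

theorem om_ex (h0 : s x ≠ 0) (h : ∀ v (c : ℂ), ds s e x v = c • s x → v = 0) :
    ∃ α, om α s e x ≠ 0 ∧ s x (α 0) ≠ 0 := by
  obtain ⟨α, hα⟩ := pick (fun k a => (Fin.cons (s x) fun b => ds s e x (Pi.single b 1) :
    Fin (n + 1) → Fin N → ℂ) a k) fun w hw => by
      have h1 : ds s e x (Fin.tail w) + w 0 • s x = 0 := funext fun k =>
        (congrFun (om_mv (fun _ => k) (w 0) (Fin.tail w)) 0).symm.trans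
          (by rw [Fin.cons_self_tail]; exact hw k)
      have h2 := h _ (-w 0) (by rw [neg_smul]; exact eq_neg_of_add_eq_zero_left h1)
      rw [h2, ds_sum] at h1
      have h3 : w 0 = 0 := by simpa [h0] using h1
      exact funext (Fin.cases h3 (congrFun h2))
  obtain ⟨b, hb⟩ : ∃ b, s x (α b) ≠ 0 := by
    by_contra! k
    exact hα (Matrix.det_eq_zero_of_column_eq_zero 0 k)
  have := mul_ne_zero (a := ((Equiv.Perm.sign (Equiv.swap 0 b) : ℤ) : ℂ)) (by simp) hα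
  rw [← Matrix.det_permute] at this
  exact ⟨α ∘ Equiv.swap 0 b, this, by simpa using hb⟩

theorem vel {Z : Set (Cm N)} (hZ : ∀ v ∈ Z, ∀ t : ℂ, t • v ∈ Z) (h : AnV n s x) (he : At e x)
    (hs : ∀ᶠ y in 𝓝 x, s y ∈ Z) {c : ℂ} (hc : c ≠ 0) (v : Cm n) (t : ℂ) :
    Vel Z (c • s x) (ds s e x v + t • s x) := by
  have h1 : HasDerivAt (fun ε : ℂ => e x + ε • c⁻¹ • v) (c⁻¹ • v) 0 := by
    simpa using ((hasDerivAt_id (0 : ℂ)).smul_const (c⁻¹ • v)).const_add (e x)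
  have h2 := (h e he).differentiableAt.hasFDerivAt.comp_hasDerivAt_of_eq 0 h1 (by simp)
  have h3 : HasDerivAt (fun ε : ℂ => c + ε * t) t 0 := by
    simpa using ((hasDerivAt_id (0 : ℂ)).mul_const t).const_add c
  refine ⟨_, (h3.fun_smul h2).congr_deriv ?_, by simp [he.left_inv], ?_⟩
  · rw [← ds_fd h he]
    simp [he.left_inv, smul_smul, hc]
  · have h4 : Tendsto (fun ε : ℂ => e x + ε • c⁻¹ • v) (𝓝 0) (𝓝 (e x)) := by
      simpa [ContinuousAt] using h1.continuousAt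
    exact (h4.eventually (at_ev he hs)).mono fun ε k => hZ _ k _

end

/-- the cone with its vertex -/
def Zc (D : Dat n) : Set (Cm D.N) := {v | v = 0 ∨ In D.P v}

variable {D : Dat n} (hP : Cv.Pt D)

theorem anV {a : D.H.ι} {x : D.X.X} (hx : x ∈ D.H.U a) : AnV n (D.s a) x := D.lifts.hol a x hx

theorem near {a : D.H.ι} {x : D.X.X} (hx : x ∈ D.H.U a) : ∀ᶠ y in 𝓝 x, D.s a y ∈ Zc D :=
  ((D.lb.isOpen a).eventually_mem hx).mono fun y hy => Or.inr (D.ins a y hy).1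

theorem prime {P Q : Pl D.N} {d e : ℕ} (h1 : P.IsHomogeneous d) (h2 : Q.IsHomogeneous e)
    (h : ∀ a, ∀ x ∈ D.H.U a, eval (D.s a x) (P * Q) = 0) :
    (∀ a, ∀ x ∈ D.H.U a, eval (D.s a x) P = 0) ∨ ∀ a, ∀ x ∈ D.H.U a, eval (D.s a x) Q = 0 := by
  have := D.conn
  have k1 : ∀ {P : Pl D.N} {d : ℕ}, P.IsHomogeneous d → ∀ a, ∀ x ∈ D.H.U a, eval (D.s a x) P = 0 →
      ∀ b, x ∈ D.H.U b → eval (D.s b x) P = 0 := fun hP a x hx k b hb => by
    obtain ⟨c, hc⟩ := D.lifts.chg b a x hb hx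
    rw [hc, eval_sc hP, k, mul_zero]
  have k2 : ∀ {P : Pl D.N} {d : ℕ}, P.IsHomogeneous d →
      An n {x | ∀ a, x ∈ D.H.U a → eval (D.s a x) P = 0} := fun {P _} hP x => by
    obtain ⟨a, ha⟩ := D.lb.cover x
    refine ⟨1, fun _ y => eval (D.s a y) P, fun _ =>
      (anV ha).cmp (AnalyticOnNhd.eval_mvPolynomial P _ trivial), ?_⟩
    filter_upwards [(D.lb.isOpen a).mem_nhds ha] with y hy
    exact ⟨fun k _ => k a hy, fun k => k1 hP a y hy (k 0)⟩
  by_contra hc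
  rw [not_or] at hc
  refine (((k2 h1).thin fun e => hc.1 fun a x => (e.ge trivial :) a).union
    ((k2 h2).thin fun e => hc.2 fun a x => (e.ge trivial :) a)).ne_univ (eq_univ_of_forall fun x => ?_)
  obtain ⟨a, ha⟩ := D.lb.cover x
  exact (mul_eq_zero.1 ((map_mul _ _ _).symm.trans (h a x ha))).imp (k1 h1 a x ha) (k1 h2 a x ha)

include hP

theorem rep {v : Cm D.N} (hv : v ∈ Zc D) (h0 : v ≠ 0) :
    ∃ a, ∃ x ∈ D.H.U a, ∃ c : ℂ, c ≠ 0 ∧ v = c • D.s a x :=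
  let ⟨a, ha⟩ := D.lb.cover (D.pt v)
  ⟨a, _, ha, hP.spec v (hv.resolve_left h0) a ha⟩

theorem zc_smul (v : Cm D.N) (hv : v ∈ Zc D) (t : ℂ) : t • v ∈ Zc D := by
  by_cases h : t • v = 0
  · exact Or.inl h
  · exact Or.inr (hP.smul v (hv.resolve_left (smul_ne_zero_iff.1 h).2) t (smul_ne_zero_iff.1 h).1).1

theorem mem_iz {P : Pl D.N} {d : ℕ} (h1 : P.IsHomogeneous d)
    (h : ∀ a, ∀ x ∈ D.H.U a, eval (D.s a x) P = 0) : P ∈ IZ (Zc D) := fun v hv => by
  by_cases h0 : v = 0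
  · obtain ⟨x⟩ := D.conn.toNonempty
    obtain ⟨a, ha⟩ := D.lb.cover x
    rw [h0, ← zero_smul ℂ (D.s a x), eval_sc h1, h a x ha, mul_zero]
  · obtain ⟨a, x, hx, c, -, rfl⟩ := rep hP hv h0
    rw [eval_sc h1, h a x hx, mul_zero]

theorem eq_iz (i : Fin D.r) : D.P i ∈ IZ (Zc D) :=
  mem_iz hP (D.cone.hom i) fun a x hx => congrFun (D.ins a x hx).1.2 i

theorem tan {a : D.H.ι} {x : D.X.X} (hx : x ∈ D.H.U a) {e : Chart n D.X.X} (he : At e x) {c : ℂ}
    (hc : c ≠ 0) {ξ : Cm D.N} (h : TH (Zc D) (c • D.s a x) ξ) :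
    ∃ (v : Cm n) (t : ℂ), ξ = ds (D.s a) e x v + t • D.s a x :=
  (hP.ker a x hx e he ξ).1 (((hP.smul _ (D.ins a x hx).1 c hc).2 ξ).1
    (funext fun i => h _ (eq_iz hP i) ⟨_, D.cone.hom i⟩))

/-- **the data of the cone** -/
theorem exists_cd (ch : D.H.ι → Chart n D.X.X) (hch : ∀ a, ∀ x ∈ D.H.U a, At (ch a) x) {ι : Type}
    (α : ι → Fin (n + 1) → Fin D.N) (Y : ι → Pl D.N) {c d : ℕ} (hc : c ≠ 0)
    (hd : d + 1 = c * (n + 1)) (hom : ∀ i, (Y i).IsHomogeneous d)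
    (hY : ∀ i a, ∀ x ∈ D.H.U a, eval (D.s a x) (Y i) = om (α i) (D.s a) (ch a) x ^ c)
    (lead : ∀ i a, ∀ x ∈ D.H.U a, om (α i) (D.s a) (ch a) x ≠ 0 → D.s a x (α i 0) ≠ 0)
    (cover : ∀ a, ∀ x ∈ D.H.U a, ∃ i, om (α i) (D.s a) (ch a) x ≠ 0) :
    ∃ S : CD n D.N c 1, S.Z = Zc D := by
  have hv := fun a x (hx : x ∈ D.H.U a) (c : ℂ) (hc : c ≠ 0) =>
    vel (zc_smul hP) (anV hx) (hch a x hx) (near hx) hc
  have h0 : ∀ i a, ∀ x ∈ D.H.U a, ∀ t : ℂ, eval (t • D.s a x) (Y i) ≠ 0 →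
      om (α i) (D.s a) (ch a) x ≠ 0 := fun i a x hx t h k =>
    h (by rw [eval_sc (hom i), hY i a x hx, k, zero_pow hc, mul_zero])
  refine ⟨⟨Zc D, zc_smul hP, fun P Q d e h1 h2 h => (prime h1 h2 fun a x hx =>
    h _ (near hx).self_of_nhds).imp (mem_iz hP h1) (mem_iz hP h2), fun v h => ?_,
    fun v h1 h2 ξ h => ?_, ι, α, Y, d, hd, hom, ?_, fun v h1 h2 => ?_, fun i v h1 h2 h => ?_,
    fun i v h1 h2 h ξ h3 h4 => ?_, fun i v h1 h2 h θ => ?_, fun i j v h1 h2 ξ h => ?_⟩, rfl⟩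
  · exact or_iff_not_imp_left.2 fun k => ⟨k, funext fun i => h _ (eq_iz hP i) ⟨_, D.cone.hom i⟩⟩
  · obtain ⟨a, x, hx, t, ht, rfl⟩ := rep hP h1 h2
    obtain ⟨v, t', rfl⟩ := tan hP hx (hch a x hx) ht h
    exact hv a x hx t ht v t'
  · obtain ⟨x⟩ := D.conn.toNonempty
    obtain ⟨a, ha⟩ := D.lb.cover x
    exact ⟨_, (near ha).self_of_nhds, D.lifts.nz a x ha⟩
  · obtain ⟨a, x, hx, t, ht, rfl⟩ := rep hP h1 h2
    refine (cover a x hx).imp fun i hi => ?_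
    rw [eval_sc (hom i), hY i a x hx]
    exact mul_ne_zero (pow_ne_zero _ ht) (pow_ne_zero _ hi)
  · obtain ⟨a, x, hx, t, ht, rfl⟩ := rep hP h1 h2
    exact mul_ne_zero ht (lead i a x hx (h0 i a x hx t h))
  · obtain ⟨a, x, hx, t, ht, rfl⟩ := rep hP h1 h2
    obtain ⟨v, t', rfl⟩ := tan hP hx (hch a x hx) ht h3
    have h5 := lead i a x hx (h0 i a x hx t h)
    obtain rfl : v = 0 := om_inj (h0 i a x hx t h)
      (t := -(ds (D.s a) (ch a) x v (α i 0) / D.s a x (α i 0))) fun b => by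
        have := h4 b
        simp only [Pi.add_apply, Pi.smul_apply, smul_eq_mul] at this ⊢
        field_simp at this ⊢
        linear_combination this
    exact ⟨t' / t, by rw [ds_sum, smul_smul, div_mul_cancel₀ _ ht]; simp⟩
  · obtain ⟨a, x, hx, t, ht, rfl⟩ := rep hP h1 h2
    obtain ⟨v, t', k⟩ := om_surj (h0 i a x hx t h) θ
    exact ⟨_, hv a x hx t ht v t', k⟩
  · obtain ⟨a, x, hx, t, ht, rfl⟩ := rep hP h1 h2
    choose v t' k using fun b => tan hP hx (hch a x hx) ht (h b)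
    have h3 : ∀ α, pl α (t • D.s a x) ξ =
        t * (Matrix.of fun j b => v b j).det * om α (D.s a) (ch a) x := fun α => by
      rw [om, ← pl_chg _ _ _ _ _ t']
      exact congrArg _ (funext fun b => by rw [k b, ds_sum]; rfl)
    simp only [h3, eval_sc (hom _), hY _ a x hx, mul_pow]
    ring

end Vale.Agent.P280Z.Br
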