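import Vale.Agent.P280Z.Br.Sm

/-!
# P280, bridge: the cone over an embedded Fano manifold, slices, linear systems
-/

open MvPolynomial Filter Topology Set

noncomputable section

namespace Vale.Agent.P280Z.Br

variable {n N : ℕ}

/-- a Plücker coordinate -/
def pl {B : Type} [CommRing B] (α : Fin (n + 1) → Fin N) (v : Fin N → B) (ξ : Fin n → Fin N → B) :
    B := (Matrix.of fun b a : Fin (n + 1) => (Fin.cons v ξ : Fin (n + 1) → Fin N → B) a (α b)).det

/-- the common kernel of the differentials of the homogeneous equations -/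
def TH (Z : Set (Fin N → ℂ)) (v ξ : Fin N → ℂ) : Prop :=
  ∀ P ∈ IZ Z, (∃ d, P.IsHomogeneous d) → dP P v ξ = 0

/-- the cone over a connected projective manifold of dimension `n` with `- c K = 𝒪(m)` -/
structure CD (n N c m : ℕ) : Type 1 where
  Z : Set (Fin N → ℂ)
  smul : ∀ v ∈ Z, ∀ t : ℂ, t • v ∈ Z
  prime : ∀ (P Q : Pl N) (d e : ℕ), P.IsHomogeneous d → Q.IsHomogeneous e → P * Q ∈ IZ Z →
    P ∈ IZ Z ∨ Q ∈ IZ Z
  zar : ∀ v, (∀ P ∈ IZ Z, (∃ d, P.IsHomogeneous d) → eval v P = 0) → v ∈ Z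
  arc : ∀ v ∈ Z, v ≠ 0 → ∀ ξ, TH Z v ξ → Vel Z v ξ
  ι : Type
  α : ι → Fin (n + 1) → Fin N
  Y : ι → Pl N
  d : ℕ
  hd : d + m = c * (n + 1)
  hom : ∀ i, (Y i).IsHomogeneous d
  ne : ∃ v ∈ Z, v ≠ 0
  cover : ∀ v ∈ Z, v ≠ 0 → ∃ i, eval v (Y i) ≠ 0
  lead : ∀ i, ∀ v ∈ Z, v ≠ 0 → eval v (Y i) ≠ 0 → v (α i 0) ≠ 0
  inj : ∀ i, ∀ v ∈ Z, v ≠ 0 → eval v (Y i) ≠ 0 → ∀ ξ, TH Z v ξ →
    (∀ a, v (α i 0) * ξ (α i a) = v (α i a) * ξ (α i 0)) → ∃ t : ℂ, ξ = t • v
  surj : ∀ i, ∀ v ∈ Z, v ≠ 0 → eval v (Y i) ≠ 0 → ∀ θ : Fin (n + 1) → ℂ,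
    ∃ ξ, Vel Z v ξ ∧ ∀ a, ξ (α i a) = θ a
  rel : ∀ i j, ∀ v ∈ Z, v ≠ 0 → ∀ ξ : Fin n → Fin N → ℂ, (∀ a, TH Z v (ξ a)) →
    pl (α i) v ξ ^ c * eval v (Y j) = pl (α j) v ξ ^ c * eval v (Y i)

theorem pl_map {B B' : Type} [CommRing B] [CommRing B'] (φ : B →+* B') (α : Fin (n + 1) → Fin N)
    (v : Fin N → B) (ξ : Fin n → Fin N → B) :
    φ (pl α v ξ) = pl α (fun k => φ (v k)) fun a k => φ (ξ a k) := by
  rw [pl, RingHom.map_det]
  congr 1
  ext b a
  refine Fin.cases ?_ (fun a => ?_) a <;> simp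

theorem pl_eq {K : Type} [Field K] [Algebra ℂ K] (α : Fin (n + 1) → Fin N) (y : Fin N → K)
    (D : Fin n → Derivation ℂ K K) (h : y (α 0) ≠ 0) : pl α y (fun a k => D a (y k)) =
      y (α 0) ^ (n + 1) * (Matrix.of fun b a => D a (y (α b.succ) / y (α 0))).det := by
  set t : Fin n → K := fun b => y (α b.succ) / y (α 0) with ht
  have e : ∀ b, y (α b.succ) = y (α 0) * t b := fun b => by rw [ht]; field_simp
  let B : Matrix (Fin (n + 1)) (Fin (n + 1)) K := Matrix.of (Fin.cons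
    (Fin.cons (y (α 0)) fun a => D a (y (α 0))) fun b => Fin.cons 0 fun a => y (α 0) * D a (t b))
  rw [pl, Matrix.det_eq_of_forall_row_eq_smul_add_const (B := B) (Fin.cons 0 t) 0 rfl,
    Matrix.det_succ_column_zero, Fin.sum_univ_succ, Finset.sum_eq_zero fun b _ => by simp [B],
    show B.submatrix (Fin.succAbove 0) Fin.succ = y (α 0) • Matrix.of fun b a => D a (t b) from
      Matrix.ext fun b a => by simp [B], Matrix.det_smul]
  · simp [B, pow_succ', mul_assoc, ht]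
  · intro b a
    refine Fin.cases ?_ (fun b => ?_) b <;> refine Fin.cases ?_ (fun a => ?_) a <;>
      simp [B, e, mul_comm]

theorem pd_mulX {B : Type*} [CommRing B] [Algebra ℂ B] (a δ : Fin N → B) (Q : Pl N) (l : Fin N) :
    ∑ k, aeval a (pderiv k (Q * X l)) * δ k =
      (∑ k, aeval a (pderiv k Q) * δ k) * a l + aeval a Q * δ l := by
  classical
  simp only [Derivation.leibniz, smul_eq_mul, map_add, map_mul, aeval_X, add_mul,
    Finset.sum_add_distrib, Finset.sum_mul]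
  rw [add_comm]
  congr 1
  · exact Finset.sum_congr rfl fun k _ => by ring
  · rw [Finset.sum_eq_single l]
    · simp
    · intro k _ hk
      rw [pderiv_X_of_ne (Ne.symm hk)]
      simp
    · simp

theorem der_aeval {K : Type} [CommRing K] [Algebra ℂ K] (D : Derivation ℂ K K) (y : Fin N → K)
    (Q : Pl N) : D (aeval y Q) = ∑ k, aeval y (pderiv k Q) * D (y k) := by
  induction Q using MvPolynomial.induction_on with
  | C c => simp
  | add P Q h1 h2 => simp only [map_add, h1, h2, add_mul, Finset.sum_add_distrib]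
  | mul_X Q l h1 =>
    rw [pd_mulX, ← h1, map_mul, aeval_X, D.leibniz, smul_eq_mul, smul_eq_mul]
    ring

theorem der_eval {γ : ℂ → Fin N → ℂ} {ξ : Fin N → ℂ} {z : ℂ} (h : HasDerivAt γ ξ z) (Q : Pl N) :
    HasDerivAt (fun ε => eval (γ ε) Q) (dP Q (γ z) ξ) z := by
  induction Q using MvPolynomial.induction_on with
  | C c => simpa [dP] using hasDerivAt_const z c
  | add P Q h1 h2 => simpa [dP, add_mul, Finset.sum_add_distrib] using h1.fun_add h2
  | mul_X Q l h1 =>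
    have h2 : dP (Q * X l) (γ z) ξ = dP Q (γ z) ξ * γ z l + eval (γ z) Q * ξ l :=
      pd_mulX (γ z) ξ Q l
    simpa only [h2, map_mul, eval_X] using h1.fun_mul (hasDerivAt_pi.1 h l)

/-- the slice `ℓ = 1` -/
def sl (Z : Set (Fin N → ℂ)) (l : Pl N) : Set (Fin N → ℂ) := {v | v ∈ Z ∧ eval v l = 1}

theorem homog {l : Pl N} (hl : l.IsHomogeneous 1) (Q : Pl N) : ∃ (d : ℕ) (Q' : Pl N),
    Q'.IsHomogeneous d ∧ ∀ (B : Type) [CommRing B] [Algebra ℂ B] (y : Fin N → B) (t : B),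
      t * aeval y l = 1 → aeval (fun k => t * y k) Q = t ^ d * aeval y Q' := by
  induction Q using MvPolynomial.induction_on with
  | C c => exact ⟨0, C c, isHomogeneous_C _ _, fun B _ _ y t _ => by simp⟩
  | add P Q h1 h2 =>
    obtain ⟨d, P', a1, a2⟩ := h1
    obtain ⟨e, Q', b1, b2⟩ := h2
    refine ⟨d + e, P' * l ^ e + l ^ d * Q', (a1.mul (by simpa using hl.pow e)).add
      (IsHomogeneous.mul (by simpa using hl.pow d) b1), fun B _ _ y t h => ?_⟩
    have h3 : ∀ k, t ^ k * aeval y l ^ k = 1 := fun k => by rw [← mul_pow, h, one_pow]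
    simp only [map_add, map_mul, map_pow, a2 B y t h, b2 B y t h]
    linear_combination (-t ^ d * aeval y P') * h3 e - (t ^ e * aeval y Q') * h3 d
  | mul_X Q k h1 =>
    obtain ⟨d, P', a1, a2⟩ := h1
    refine ⟨d + 1, P' * X k, a1.mul (isHomogeneous_X ℂ k), fun B _ _ y t h => ?_⟩
    simp only [map_mul, aeval_X, a2 B y t h]
    ring

theorem ne_of_sl {Z : Set (Fin N → ℂ)} {l : Pl N} (hl : l.IsHomogeneous 1) {v : Fin N → ℂ}
    (hv : v ∈ sl Z l) : v ≠ 0 := fun h => by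
  have := eval_sc hl 0 v
  rw [zero_smul, ← h, hv.2] at this
  simp at this

theorem dP_self {l : Pl N} (hl : l.IsHomogeneous 1) (w : Fin N → ℂ) : dP l w w = eval w l := by
  have h1 := der_eval (z := 1) ((hasDerivAt_id (1 : ℂ)).smul_const w) l
  simp only [id, one_smul, eval_sc hl, pow_one] at h1
  simpa using h1.unique ((hasDerivAt_id (1 : ℂ)).mul_const (eval w l))

theorem dP_smul (Q : Pl N) (w ξ : Fin N → ℂ) (t : ℂ) : dP Q w (t • ξ) = t * dP Q w ξ := by
  simp only [dP, Pi.smul_apply, smul_eq_mul, Finset.mul_sum]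
  exact Finset.sum_congr rfl fun k _ => by ring

/-- a linear system which is nondegenerate at `w` -/
theorem lsys {K : Type} [CommRing K] [Algebra ℂ K] (T : Submodule ℂ K) (y η : Fin N → K)
    (w : Fin N → ℂ) (h1 : ∀ Q : Pl N, ∀ s ∈ T, aeval y Q * s ∈ T)
    (h2 : ∀ Q : Pl N, eval w Q ≠ 0 → ∀ s, aeval y Q * s ∈ T → s ∈ T)
    (h3 : ∀ ξ : Fin N → ℂ, (∀ r : Fin N → Pl N, ∑ k, aeval y (r k) * η k ∈ T →
      ∑ k, eval w (r k) * ξ k = 0) → ξ = 0) (k : Fin N) : η k ∈ T := by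
  classical
  let R : Submodule ℂ (Fin N → ℂ) :=
    { carrier := {a | ∃ r : Fin N → Pl N, ∑ k, aeval y (r k) * η k ∈ T ∧ ∀ k, eval w (r k) = a k}
      zero_mem' := ⟨0, by simp, fun _ => by simp⟩
      add_mem' := by
        rintro a b ⟨r, k1, k2⟩ ⟨r', k1', k2'⟩
        exact ⟨r + r', by simpa [add_mul, Finset.sum_add_distrib] using add_mem k1 k1',
          fun k => by simp [k2, k2']⟩
      smul_mem' := by
        rintro t a ⟨r, k1, k2⟩
        refine ⟨fun k => C t * r k, ?_, fun k => by simp [k2]⟩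
        simpa only [Finset.mul_sum, map_mul, mul_assoc] using h1 (C t) _ k1 }
  have hR : R = ⊤ := by
    by_contra h
    obtain ⟨f, f0, hf⟩ := R.exists_le_ker_of_lt_top (lt_top_iff_ne_top.2 h)
    have h4 := h3 (fun k => f fun l => if k = l then 1 else 0) fun r hr => by
      have h5 : f (fun k => eval w (r k)) = 0 := hf ⟨r, hr, fun _ => rfl⟩
      rwa [LinearMap.pi_apply_eq_sum_univ] at h5
    refine f0 (LinearMap.ext fun a => ?_)
    rw [LinearMap.pi_apply_eq_sum_univ]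
    exact Finset.sum_eq_zero fun k _ => by rw [congrFun h4 k]; simp
  choose r k1 k2 using fun l : Fin N =>
    (show (fun k => if l = k then 1 else 0) ∈ R from hR ▸ Submodule.mem_top)
  let M : Matrix (Fin N) (Fin N) (Pl N) := Matrix.of r
  have hM : eval w M.det = 1 := by
    rw [RingHom.map_det, show (eval w).mapMatrix M = 1 from Matrix.ext fun i j => k2 i j,
      Matrix.det_one]
  refine h2 M.det (hM.trans_ne one_ne_zero) _ ?_
  let φ : Pl N →+* K := (aeval y : Pl N →ₐ[ℂ] K)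
  have h5 : φ M.det * η k = ∑ l, φ (M.adjugate k l) * ∑ j, φ (r l j) * η j := by
    have h6 := congrArg (fun A : Matrix (Fin N) (Fin N) (Pl N) => (φ.mapMatrix A).mulVec η k)
      M.adjugate_mul
    rw [map_mul, ← Matrix.mulVec_mulVec] at h6
    refine Eq.trans ?_ h6.symm
    simp [Matrix.mulVec, dotProduct, Matrix.one_apply, apply_ite φ]
  exact (show φ M.det * η k ∈ T from h5 ▸ T.sum_mem fun l _ => h1 _ _ (k1 l))

namespace CD

variable {c m : ℕ} (S : CD n N c m) {l : Pl N}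

theorem sc_mem (hl : l.IsHomogeneous 1) {v : Fin N → ℂ} (hv : v ∈ S.Z) (h : eval v l ≠ 0) :
    (eval v l)⁻¹ • v ∈ sl S.Z l :=
  ⟨S.smul v hv _, by rw [eval_sc hl, pow_one, inv_mul_cancel₀ h]⟩

theorem of_sl (hl : l.IsHomogeneous 1) (h0 : l ∉ IZ S.Z) {R : Pl N} {d : ℕ}
    (hR : R.IsHomogeneous d) (h : R ∈ IZ (sl S.Z l)) : R ∈ IZ S.Z := by
  refine (S.prime l R 1 d hl hR fun v hv => ?_).resolve_left h0
  rw [map_mul]
  by_cases h1 : eval v l = 0
  · rw [h1, zero_mul]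
  · have := h _ (S.sc_mem hl hv h1)
    rw [eval_sc hR, mul_eq_zero] at this
    rw [this.resolve_left (pow_ne_zero _ (inv_ne_zero h1)), mul_zero]

theorem hg_eval {Q Q' : Pl N} {d : ℕ} (h : ∀ (B : Type) [CommRing B] [Algebra ℂ B] (y : Fin N → B)
    (t : B), t * aeval y l = 1 → aeval (fun k => t * y k) Q = t ^ d * aeval y Q')
    {v : Fin N → ℂ} (hv : v ∈ sl S.Z l) : eval v Q = eval v Q' := by
  simpa using h ℂ v 1 (by simpa using hv.2)

theorem sl_prime (hl : l.IsHomogeneous 1) (h0 : l ∉ IZ S.Z) : (IZ (sl S.Z l)).IsPrime := by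
  refine ⟨fun h => h0 (S.of_sl hl h0 hl (h ▸ Submodule.mem_top)), fun {P Q} h => ?_⟩
  obtain ⟨d, P', a1, a2⟩ := homog hl P
  obtain ⟨e, Q', b1, b2⟩ := homog hl Q
  refine (S.prime P' Q' d e a1 b1 (S.of_sl hl h0 (a1.mul b1) fun v hv => ?_)).imp
    (fun k v hv => ?_) fun k v hv => ?_
  · rw [map_mul, ← S.hg_eval a2 hv, ← S.hg_eval b2 hv, ← map_mul, h v hv]
  · rw [S.hg_eval a2 hv, k v hv.1]
  · rw [S.hg_eval b2 hv, k v hv.1]

theorem sl_zar (w : Fin N → ℂ) (h : ∀ Q ∈ IZ (sl S.Z l), eval w Q = 0) : w ∈ sl S.Z l :=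
  ⟨S.zar w fun P hP _ => h P fun v hv => hP v hv.1, by
    simpa [sub_eq_zero] using h (l - 1) fun v hv => by simp [hv.2]⟩

theorem sl_vel (hl : l.IsHomogeneous 1) {w ξ : Fin N → ℂ} (hw : w ∈ sl S.Z l) (h : Vel S.Z w ξ)
    (h0 : dP l w ξ = 0) : Vel (sl S.Z l) w ξ := by
  obtain ⟨γ, h1, h2, h3⟩ := h
  have h4 := der_eval h1 l
  have h5 : eval (γ 0) l ≠ 0 := by rw [h2, hw.2]; exact one_ne_zero
  refine ⟨fun ε => (eval (γ ε) l)⁻¹ • γ ε, ?_, by simp [h2, hw.2], ?_⟩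
  · simpa [h2, hw.2, h0] using (h4.fun_inv h5).fun_smul h1
  · filter_upwards [h3, h4.continuousAt.eventually_ne h5] with ε a b using S.sc_mem hl a b

theorem sl_tc (hl : l.IsHomogeneous 1) (w : Fin N → ℂ) (hw : w ∈ sl S.Z l) (ξ : Fin N → ℂ)
    (h : Tg (sl S.Z l) w ξ) : Vel (sl S.Z l) w ξ :=
  S.sl_vel hl hw (S.arc w hw.1 (ne_of_sl hl hw) ξ fun P hP _ => h P fun v hv => hP v hv.1)
    (by simpa [dP] using h (l - 1) fun v hv => by simp [hv.2])

/-- derivations are determined by their values on the local coordinates -/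
theorem der_mem (hl : l.IsHomogeneous 1) {K : Type} [Field K] [Algebra ℂ K] (T : Submodule ℂ K)
    {y : Fin N → K} {w : Fin N → ℂ} (hw : w ∈ sl S.Z l) {i : S.ι} (hi : eval w (S.Y i) ≠ 0)
    (hy : ∀ Q ∈ IZ (sl S.Z l), aeval y Q = 0) (h0 : y (S.α i 0) ≠ 0)
    (h1 : ∀ Q : Pl N, ∀ s ∈ T, aeval y Q * s ∈ T)
    (h2 : ∀ Q : Pl N, eval w Q ≠ 0 → ∀ s, aeval y Q * s ∈ T → s ∈ T) (D : Derivation ℂ K K)
    (hD : ∀ a : Fin n, D (y (S.α i a.succ) / y (S.α i 0)) ∈ T) (k : Fin N) : D (y k) ∈ T := by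
  classical
  refine lsys T y (fun k => D (y k)) w h1 h2 (fun ξ h => ?_) k
  have h3 : ∀ Q ∈ IZ (sl S.Z l), dP Q w ξ = 0 := fun Q hQ => h (fun k => pderiv k Q) (by
    rw [← der_aeval, hy Q hQ, map_zero]
    exact T.zero_mem)
  obtain ⟨t, rfl⟩ := S.inj i w hw.1 (ne_of_sl hl hw) hi ξ
    (fun P hP _ => h3 P fun v hv => hP v hv.1) fun a => by
      refine Fin.cases rfl (fun a => ?_) a
      have h4 := h (fun k => (if k = S.α i a.succ then X (S.α i 0) else 0) -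
        if k = S.α i 0 then X (S.α i a.succ) else 0) (by
          have h5 := h1 (X (S.α i 0) ^ 2) _ (hD a)
          rw [Derivation.leibniz_div, map_pow, aeval_X] at h5
          refine (congrArg (· ∈ T) ?_).mp h5
          simp only [map_sub, sub_mul, Finset.sum_sub_distrib, apply_ite (aeval y), aeval_X,
            map_zero, ite_mul, zero_mul, Finset.sum_ite_eq', Finset.mem_univ, if_true, smul_eq_mul]
          field_simp)
      simpa [sub_mul, apply_ite (eval w), sub_eq_zero] using h4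
  have h6 : dP l w (t • w) = 0 := by simpa [dP] using h3 (l - 1) fun v hv => by simp [hv.2]
  rw [dP_smul, dP_self hl, hw.2, mul_one] at h6
  rw [h6, zero_smul]

end CD

end Vale.Agent.P280Z.Br
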