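import Vale.Agent.P280Z.Br.Md
import Vale.Agent.P276.RC.Final

/-!
# P280, bridge: chains of rational curves over the complex numbers
-/

open MvPolynomial Set IsLocalRing
open Vale.Agent.P276 Vale.Agent.P276.M

noncomputable section

namespace Vale.Agent.P280Z.Br

theorem const_of {K : Type} [Field K] [Algebra ℂ K] {x : K}
    (h : ∀ A : ValuationSubring K, (∀ a : ℂ, algebraMap ℂ K a ∈ A) → x ∈ A) :
    ∃ a : ℂ, algebraMap ℂ K a = x := by
  have h1 : x ∈ (integralClosure (Subring.closure (range (algebraMap ℂ K))) K).toSubring := by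
    rw [← iInf_valuationSubring_superset]
    exact Subring.mem_iInf.2 fun V => h V.1 fun a => V.2 ⟨a, rfl⟩
  let φ : ℂ →+* Subring.closure (range (algebraMap ℂ K)) :=
    (algebraMap ℂ K).codRestrict _ fun a => Subring.subset_closure ⟨a, rfl⟩
  have h2 : Function.Surjective φ := fun y => by
    obtain ⟨a, ha⟩ := (Subring.closure_eq (algebraMap ℂ K).range).le y.2
    exact ⟨a, Subtype.ext ha⟩
  let _ := φ.toAlgebra
  have : IsScalarTower ℂ (Subring.closure (range (algebraMap ℂ K))) K := .of_algebraMap_eq' rfl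
  have : Algebra.IsIntegral ℂ (Subring.closure (range (algebraMap ℂ K))) :=
    ⟨φ.isIntegral_of_surjective h2⟩
  have h3 : IsIntegral ℂ x := isIntegral_trans x h1
  exact minpoly.mem_range_of_degree_eq_one ℂ x
    (IsAlgClosed.degree_eq_one_of_irreducible ℂ (minpoly.irreducible h3))

theorem exists_pl (k : Type) [Field k] [Algebra ℂ k] : Nonempty (M.Pl k ℂ) := by
  obtain ⟨V, hV, hm⟩ : ∃ V : ValuationSubring k, (∀ a : ℂ, algebraMap ℂ k a ∈ V) ∧
      ∀ ⦃W : ValuationSubring k⦄, (∀ a : ℂ, algebraMap ℂ k a ∈ W) → W ≤ V → V ≤ W :=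
    @zorn_le₀ (ValuationSubring k)ᵒᵈ _ {V : ValuationSubring k | ∀ a : ℂ, algebraMap ℂ k a ∈ V} fun c hc hch =>
      ⟨ValuationSubring.mk (⨅ V : c, ValuationSubring.toSubring V.1) fun x => by
        by_contra! h
        obtain ⟨V, h1⟩ := not_forall.1 (mt Subring.mem_iInf.2 h.1)
        obtain ⟨W, h2⟩ := not_forall.1 (mt Subring.mem_iInf.2 h.2)
        rcases hch.total V.2 W.2 with k | k
        · exact h1 (k ((ValuationSubring.mem_or_inv_mem W.1 x).resolve_right h2))
        · exact h2 (k ((ValuationSubring.mem_or_inv_mem V.1 x).resolve_left h1)),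
      fun a => Subring.mem_iInf.2 fun V => hc V.2 a, fun V h x hx => Subring.mem_iInf.1 hx (⟨V, h⟩ : c)⟩
  let c : ℂ →+* ResidueField V := (residue V).comp ((algebraMap ℂ k).codRestrict
    (ValuationSubring.toSubring V) hV)
  let _ : Algebra ℂ (ResidueField V) := c.toAlgebra
  let P : M.Pl k (ResidueField V) := ⟨V, residue V, residue_surjective, hV, fun a => rfl⟩
  let e := RingEquiv.ofBijective c ⟨c.injective, fun x => const_of fun B hB => by
    obtain ⟨y, rfl⟩ := residue_surjective x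
    exact (hm (H979.compo_memC P B hB) (fun z hz => hz.1) y.2).2⟩
  exact ⟨⟨V, e.symm.toRingHom.comp (residue V), e.symm.surjective.comp residue_surjective, hV,
    fun a => e.symm_apply_apply a⟩⟩

/-- **rational connectedness over the complex numbers** -/
theorem joined {n ρ : ℕ} (M : Model n ρ) {y y' : M.R →ₐ[ℂ] ℂ} (h : M.NVC (M.crd y))
    (h' : M.NVC (M.crd y')) : M.JoinedC (M.crd y') (M.crd y) := by
  have hL := H979.limC M
  obtain ⟨E, _, _, _, e, x, h1, h2⟩ := Model.exists_chain (RCTop.joinGen_of M (H231.pc M)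
    (H114.pg1 M) hL (H604.stepC (H568.pComb_of_core RCTop.combCore)) (H207.pLeaf RCTop.zeroSt M)) hL y h
  have := RingHom.ker_isPrime y'
  obtain ⟨k, _, _, _, P, κ, h3, h4⟩ := H568.exists_place M.R E x h1 (RingHom.ker y')
  obtain ⟨p⟩ := exists_pl k
  have nv : ∀ {y : M.R →ₐ[ℂ] ℂ}, M.NVC (M.crd y) → M.NVC fun i v => algebraMap ℂ k (M.crd y i v) :=
    fun h i => (h i).imp fun v => (map_ne_zero _).2
  have rd : ∀ {Ω k : Type} [Field Ω] [Algebra ℂ Ω] [Field k] [Algebra ℂ k] (p : P276.M.Pl Ω k)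
      (q : ∀ i, M.V i → ℂ), M.RedC p (fun i v => algebraMap ℂ Ω (q i v))
        fun i v => algebraMap ℂ k (q i v) := fun p q =>
    ⟨fun _ => 1, fun _ => one_ne_zero, fun i v => by
      simp only [one_mul]
      exact ⟨p.memC _, p.comp _⟩⟩
  refine Model.joinedC_red hL p (Model.joinedC_red hL P h2 ⟨fun _ => 1, fun _ => one_ne_zero,
    fun i v => ?_⟩ ?_ (nv h') (nv h)) (rd p _) (rd p _) h' h
  · simp only [one_mul]
    refine (h4 _).imp fun _ k => k.trans ?_
    have := (h3 (M.el i v - algebraMap ℂ _ (y' (M.el i v)))).2 (by simp [RingHom.mem_ker])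
    rwa [map_sub, AlgHom.commutes, sub_eq_zero] at this
  · rw [show M.crd (e.comp y) = fun i v => algebraMap ℂ E (M.crd y i v) from
      funext fun i => funext fun v => e.commutes _]
    exact rd P _

end Vale.Agent.P280Z.Br
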