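import Vale.Agent.P280Z.Br.Ch
import Vale.Agent.P280Z.Mp.Bf0

/-!
# P280, bridge: rational curves on the cone
-/

open MvPolynomial Set Function
open Vale.Agent.P276 Vale.Agent.P276.M
open Vale.Agent.P272.K (Cm)
open Vale.Agent.P280Z.Mp (BF ev ev_arg ev_one ev_snd)

noncomputable section

namespace Vale.Agent.P280Z.Br

variable {n N c m : ℕ}

/-- curves of degree `d` on the cone `Z` -/
def Cr (Z : Set (Fin N → ℂ)) {d : ℕ} (φ : BF d N) : Prop := ∀ p ≠ 0, ev φ p ∈ Z ∧ ev φ p ≠ 0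

/-- two points of the cone on one curve -/
def Lk (Z : Set (Fin N → ℂ)) (v w : Fin N → ℂ) : Prop :=
  ∃ (d : ℕ) (φ : BF d N) (p q : Cm 2) (a b : ℂ), Cr Z φ ∧ p ≠ 0 ∧ q ≠ 0 ∧ a ≠ 0 ∧ b ≠ 0 ∧
    v = a • ev φ p ∧ w = b • ev φ q

/-- the points of the line -/
def pz (z : Option ℂ) : Cm 2 := z.elim ![0, 1] fun c => ![1, c]

theorem pz_ne (z : Option ℂ) : pz z ≠ 0 := fun h => by
  cases z
  · simpa [pz] using congrFun h 1
  · simpa [pz] using congrFun h 0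

theorem ex_pz {p : Cm 2} (hp : p ≠ 0) : ∃ (z : Option ℂ) (t : ℂ), t ≠ 0 ∧ p = t • pz z := by
  by_cases h : p 0 = 0
  · refine ⟨none, p 1, fun k => hp (funext fun i => ?_), funext fun i => ?_⟩ <;> fin_cases i <;>
      simp [pz, *]
  · refine ⟨some (p 1 / p 0), p 0, h, funext fun i => ?_⟩
    fin_cases i <;> simp [pz, mul_div_cancel₀ _ h]

/-- the model of a cone -/
structure Md (S : CD n N c m) (M : Model n 1) (u : Fin N → M.K) : Prop where
  V : M.V 0 = Submodule.span ℂ (range u)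
  ker : ∀ (R : Pl N) (d : ℕ), R.IsHomogeneous d → (aeval u R = 0 ↔ R ∈ IZ S.Z)

namespace Md

variable {S : CD n N c m} {M : Model n 1} {u : Fin N → M.K} (h : Md S M u)

/-- the coordinates -/
def x (k : Fin N) : M.V 0 := ⟨u k, h.V ▸ Submodule.subset_span (mem_range_self k)⟩

/-- the presentation of the coordinate ring -/
def ρ : Pl N →ₐ[ℂ] M.R := aeval fun k => M.el 0 (h.x k)

theorem ρ_hom {R : Pl N} {d : ℕ} (hR : R.IsHomogeneous d) :
    (h.ρ R : MvPolynomial (Fin 1) M.K) = X 0 ^ d * C (aeval u R) := by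
  refine (comp_aeval_apply _ M.R.val R).trans ((congrArg (aeval · R)
    (funext fun k => mul_comm _ _)).trans ((aeval_sc hR (X 0) fun k => C (u k)).trans ?_))
  exact congrArg _
    (comp_aeval_apply u (IsScalarTower.toAlgHom ℂ M.K (MvPolynomial (Fin 1) M.K)) R).symm

theorem ρ_lin (v : M.V 0) : ∃ l : Pl N, l.IsHomogeneous 1 ∧ h.ρ l = M.el 0 v := by
  obtain ⟨l, h1, h2⟩ := exists_lin (h.V ▸ v.2 : v.1 ∈ Submodule.span ℂ (range u))
  exact ⟨l, h1, Subtype.ext (by rw [h.ρ_hom h1, h2, pow_one, mul_comm]; rfl)⟩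

theorem ρ_surj : Surjective h.ρ := fun ⟨a, ha⟩ => by
  have : M.R ≤ (M.R.val.comp h.ρ).range := Algebra.adjoin_le (by
    rintro _ ⟨i, v, hv, rfl⟩
    obtain rfl : i = 0 := Subsingleton.elim _ _
    obtain ⟨l, -, hl⟩ := h.ρ_lin ⟨v, hv⟩
    exact ⟨l, congrArg Subtype.val hl⟩)
  obtain ⟨P, hP⟩ := this ha
  exact ⟨P, Subtype.ext hP⟩

theorem ρ_ker {R : Pl N} (hR : h.ρ R = 0) : R ∈ IZ S.Z := by
  classical
  rw [← sum_homogeneousComponent R] at hR ⊢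
  refine Ideal.sum_mem _ fun j hj => (h.ker _ j (homogeneousComponent_isHomogeneous j R)).1 ?_
  have h1 := congrArg (fun a : M.R => coeff (Finsupp.single 0 j) a.1) hR
  simp only [map_sum, AddSubmonoidClass.coe_finsetSum, coeff_sum,
    h.ρ_hom (homogeneousComponent_isHomogeneous _ R), X_pow_eq_monomial, mul_comm _ (C _),
    C_mul_monomial, coeff_monomial, (Finsupp.single_injective _).eq_iff, mul_one,
    Finset.sum_ite_eq', if_pos hj] at h1
  exact h1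

theorem exists_y {v : Fin N → ℂ} (hv : v ∈ S.Z) :
    ∃ y : M.R →ₐ[ℂ] ℂ, (fun k => M.crd y 0 (h.x k)) = v := by
  have h1 : RingHom.ker h.ρ.toRingHom ≤ RingHom.ker (aeval v : Pl N →ₐ[ℂ] ℂ).toRingHom :=
    fun _ hR => h.ρ_ker hR v hv
  refine ⟨AlgHom.liftOfSurjective h.ρ h.ρ_surj (aeval v) h1, funext fun k => ?_⟩
  rw [Model.crd, show M.el 0 (h.x k) = h.ρ (X k) from
    (aeval_X (fun k => M.el 0 (h.x k)) k).symm,
    AlgHom.liftOfSurjective_apply, aeval_X]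

theorem ev_y (y : M.R →ₐ[ℂ] ℂ) (P : Pl N) : eval (fun k => M.crd y 0 (h.x k)) P = y (h.ρ P) :=
  (comp_aeval_apply _ y P).symm

theorem mem (y : M.R →ₐ[ℂ] ℂ) : (fun k => M.crd y 0 (h.x k)) ∈ S.Z :=
  S.zar _ fun P hP ⟨d, hd⟩ => by
    rw [h.ev_y, show h.ρ P = 0 from Subtype.ext (by
      rw [h.ρ_hom hd, (h.ker P d hd).2 hP, map_zero, mul_zero]; rfl), map_zero]

theorem nv (y : M.R →ₐ[ℂ] ℂ) : M.NVC (M.crd y) ↔ (fun k => M.crd y 0 (h.x k)) ≠ 0 := by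
  refine ⟨fun k e => ?_, fun k i => ?_⟩
  · obtain ⟨v, hv⟩ := k 0
    obtain ⟨l, h1, h2⟩ := h.ρ_lin v
    have := eval_sc h1 0 0
    rw [zero_smul, pow_one, zero_mul, ← e, h.ev_y, h2] at this
    exact hv this
  · obtain rfl : i = 0 := Subsingleton.elim _ _
    obtain ⟨k, hk⟩ := ne_iff.1 k
    exact ⟨_, hk⟩

/-- the forms of a quasi-map -/
def fm {g : Fin 1 → ℕ} (G : M.QM ℂ g) : BF (g 0) N := fun j k => (G.F (M.el 0 (h.x k))).coeff j

theorem ev_fm {g : Fin 1 → ℕ} (G : M.QM ℂ g) (z : Option ℂ) :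
    ev (h.fm G) (pz z) = fun k => G.valC z 0 (h.x k) := by
  cases z with
  | none => exact ev_snd _
  | some c =>
    refine (ev_one _ c).trans (funext fun k => ?_)
    rw [Finset.sum_apply]
    refine Eq.trans ?_ ((Polynomial.eval_eq_sum_range' (Nat.lt_succ_of_le (G.deg 0 (h.x k))) c).trans
      (Finset.sum_range _)).symm
    exact Finset.sum_congr rfl fun j _ => mul_comm _ _

theorem cr {g : Fin 1 → ℕ} {G : M.QM ℂ g} (hG : G.Honest) : Cr S.Z (h.fm G) := fun p hp => by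
  obtain ⟨z, t, ht, rfl⟩ := ex_pz hp
  obtain ⟨y, hy, -⟩ := RCTop.exists_val G z
  rw [ev_arg, ev_fm, ← hy]
  refine ⟨S.smul _ (h.mem y) _, smul_ne_zero (pow_ne_zero _ ht) ((h.nv y).1 fun i => ?_)⟩
  rw [hy]
  cases z with
  | none => exact hG.2 i
  | some c => exact hG.1 i c

end Md

/-- **chains** -/
theorem CD.chain (S : CD n N c m) (hc : 0 < c) (hm : 0 < m) {v w : Fin N → ℂ} (hv : v ∈ S.Z)
    (hw : w ∈ S.Z) (v0 : v ≠ 0) (w0 : w ≠ 0) :
    Relation.ReflTransGen (fun v w => (∃ t : ℂ, t ≠ 0 ∧ w = t • v) ∨ Lk S.Z v w) v w := by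
  obtain ⟨M, u, -, -, h1, h2⟩ := exists_model S hc hm
  have h : Md S M u := ⟨h1, h2⟩
  obtain ⟨y, rfl⟩ := h.exists_y hv
  obtain ⟨y', rfl⟩ := h.exists_y hw
  refine Relation.ReflTransGen.lift (fun q : ∀ i, M.V i → ℂ => fun k => q 0 (h.x k)) ?_ _ _
    (joined M ((h.nv _).2 w0) ((h.nv _).2 v0))
  rintro q q' (⟨t, k1, k2⟩ | ⟨g, G, z, z', hG, ⟨t, k1, k2⟩, t', k3, k4⟩)
  · exact Or.inl ⟨t 0, k1 0, funext fun k => k2 0 _⟩
  · exact Or.inr ⟨_, h.fm G, _, _, t 0, t' 0, h.cr hG, pz_ne z, pz_ne z', k1 0, k3 0,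
      by rw [h.ev_fm]; exact funext fun k => k2 0 _, by rw [h.ev_fm]; exact funext fun k => k4 0 _⟩

end Vale.Agent.P280Z.Br
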