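import Vale.Agent.P280Z.Br.Io
import Vale.Agent.P276.H507.Asm

/-!
# P280, bridge: linear vector fields on the cone, the Veronese cone
-/

open MvPolynomial Set Function
open Vale.Agent.P276 Vale.Agent.P276.M

noncomputable section

namespace Vale.Agent.P280Z.Br

variable {n N c m : ℕ}

/-- the linear vector fields which are tangent to the cone span the tangent spaces -/
def Trv (Z : Set (Fin N → ℂ)) : Prop := ∀ v ∈ Z, v ≠ 0 → ∀ ξ, TH Z v ξ →
  ∃ A : Matrix (Fin N) (Fin N) ℂ, (∀ z ∈ Z, TH Z z (A.mulVec z)) ∧ A.mulVec v = ξ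

/-- derivations which preserve the linear forms -/
theorem th_of_der {Z : Set (Fin N → ℂ)} {B : Type} [CommRing B] [Algebra ℂ B] {p : Fin N → B}
    (h1 : ∀ R ∈ IZ Z, (∃ d, R.IsHomogeneous d) → aeval p R = 0)
    (h2 : ∀ R, aeval p R = 0 → R ∈ IZ Z) (D : Derivation ℂ B B) {A : Matrix (Fin N) (Fin N) ℂ}
    (hA : ∀ k, D (p k) = ∑ l, A k l • p l) (z : Fin N → ℂ) (hz : z ∈ Z) : TH Z z (A.mulVec z) :=
  fun R hR hd => by
    have h3 := der_aeval D p R
    rw [h1 R hR hd, map_zero] at h3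
    have h4 := h2 (∑ k, pderiv k R * ∑ l, C (A k l) * X l) (by
      simpa only [map_sum, map_mul, aeval_C, aeval_X, hA, Algebra.smul_def] using h3.symm) z hz
    simp only [map_sum, map_mul, eval_C, eval_X] at h4
    exact h4

theorem CD.th_zero (S : CD n N c m) {i : S.ι} {v ξ : Fin N → ℂ} (hv : v ∈ S.Z) (h0 : v ≠ 0)
    (hi : eval v (S.Y i) ≠ 0) (h : TH S.Z v ξ) (k : ∀ a, ξ (S.α i a) = 0) : ξ = 0 := by
  obtain ⟨t, rfl⟩ := S.inj i v hv h0 hi ξ h fun a => by rw [k, k, mul_zero, mul_zero]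
  rw [(mul_eq_zero.1 (k 0)).resolve_right (S.lead i v hv h0 hi), zero_smul]

theorem CD.span (S : CD n N c m) {v ξ : Fin N → ℂ} (hv : v ∈ S.Z) (h0 : v ≠ 0) {E : Type}
    [AddCommGroup E] [Module ℂ E] [FiniteDimensional ℂ E] (hE : Module.finrank ℂ E = n + 1)
    (Φ : E →ₗ[ℂ] Fin N → ℂ) (h1 : Injective Φ) (h2 : ∀ η, TH S.Z v (Φ η)) (h : TH S.Z v ξ) :
    ∃ η, Φ η = ξ := by
  obtain ⟨i, hi⟩ := S.cover v hv h0
  obtain ⟨η, hη⟩ := (LinearMap.injective_iff_surjective_of_finrank_eq_finrank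
    (f := LinearMap.funLeft ℂ ℂ (S.α i) ∘ₗ Φ) (by simp [hE])).1
    ((injective_iff_map_eq_zero _).2 fun η k => h1
      ((S.th_zero hv h0 hi (h2 η) (congrFun k)).trans (map_zero Φ).symm)) (ξ ∘ S.α i)
  exact ⟨η, sub_eq_zero.1 (S.th_zero hv h0 hi (fun P hP hd => by
    rw [dP_sub, h2 η P hP hd, h P hP hd, sub_zero]) fun a => sub_eq_zero.2 (congrFun hη a))⟩

theorem pt_up {σ : Type} [Finite σ] {p : Fin N → MvPolynomial σ ℂ} {e : ℕ} (he : 0 < e)
    (h1 : ∀ j, ∃ R : Pl N, aeval p R = X j ^ e) {v : Fin N → ℂ}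
    (h2 : ∀ R : Pl N, aeval p R = 0 → eval v R = 0) : ∃ w : σ → ℂ, ∀ k, eval w (p k) = v k := by
  let _ := (aeval p : Pl N →ₐ[ℂ] MvPolynomial σ ℂ).toRingHom.toAlgebra
  have : Algebra.IsIntegral (Pl N) (MvPolynomial σ ℂ) := ⟨fun q => by
    induction q using MvPolynomial.induction_on with
    | C a => exact (algHom_C (aeval p) a : _ = C a) ▸ isIntegral_algebraMap (x := C a)
    | add P Q k1 k2 => exact k1.add k2
    | mul_X Q j k1 =>
      obtain ⟨R, hR⟩ := h1 j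
      exact k1.mul (IsIntegral.of_pow he (hR ▸ isIntegral_algebraMap (x := R)))⟩
  have : (mx v).IsMaximal := RingHom.ker_isMaximal_of_surjective _ fun a => ⟨C a, eval_C a⟩
  obtain ⟨Q, hQ, k⟩ := Ideal.exists_ideal_over_maximal_of_isIntegral (S := MvPolynomial σ ℂ) (mx v)
    h2
  obtain ⟨w, rfl⟩ := isMaximal_iff_eq_vanishingIdeal_singleton.1 hQ
  refine ⟨w, fun l => ?_⟩
  have h3 : aeval p (X l - C (v l)) ∈ vanishingIdeal ℂ {w} :=
    (k.ge (show X l - C (v l) ∈ mx v by simp [mem_mx]) :)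
  simpa [sub_eq_zero] using (mem_vanishingIdeal_singleton_iff w _).1 h3

/-- **the Veronese cone** -/
theorem CD.ver (S : CD n N c m) {σ : Type} [Fintype σ] (hσ : Fintype.card σ = n + 1)
    {p : Fin N → MvPolynomial σ ℂ} {e : ℕ} (hp : ∀ k, (p k).IsHomogeneous (e + 1))
    (hs : ∀ q : MvPolynomial σ ℂ, q.IsHomogeneous (e + 1) → ∃ a : Fin N → ℂ, q = ∑ l, a l • p l)
    (h1 : ∀ R ∈ IZ S.Z, (∃ d, R.IsHomogeneous d) → aeval p R = 0)
    (h2 : ∀ R, aeval p R = 0 → R ∈ IZ S.Z) : Trv S.Z := by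
  classical
  intro v hv h0 ξ hξ
  obtain ⟨w, hw⟩ := pt_up e.succ_pos (fun j => (hs _ (isHomogeneous_X_pow j _)).elim fun a k =>
    ⟨∑ l, C (a l) * X l, by simp [k, Algebra.smul_def]⟩) fun R k => h2 R k v hv
  obtain ⟨j, hj⟩ : ∃ j, w j ≠ 0 := by
    by_contra! k
    refine h0 (funext fun l => ?_)
    rw [← hw, show w = 0 from funext k, eval_zero, constantCoeff_eq]
    exact (hp l).coeff_eq_zero (by simp)
  let D : (σ → ℂ) → Derivation ℂ (MvPolynomial σ ℂ) (MvPolynomial σ ℂ) := fun η =>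
    ∑ i, (C (η i / w j) * X j : MvPolynomial σ ℂ) • pderiv i
  have hD : ∀ η q, D η q = ∑ i, C (η i / w j) * X j * pderiv i q := fun η q =>
    (congrFun (map_sum (Derivation.coeFnAddMonoidHom (R := ℂ) (A := MvPolynomial σ ℂ)
      (M := MvPolynomial σ ℂ)) _ _) q).trans (Finset.sum_apply _ _ _)
  have hE : ∀ η q, eval w (D η q) = ∑ i, eval w (pderiv i q) * η i := fun η q => by
    simp only [hD, map_sum, map_mul, eval_C, eval_X, div_mul_cancel₀ _ hj, mul_comm (η _)]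
  choose A hA using fun η k => hs (D η (p k)) (by
    rw [hD]
    exact IsHomogeneous.sum _ _ _ fun i _ => by
      simpa [add_comm] using ((isHomogeneous_C σ _).mul (isHomogeneous_X ℂ j)).mul (hp k).pderiv)
  have h3 := fun η => th_of_der h1 h2 (D η) (A := Matrix.of (A η)) (hA η)
  let Φ := (Matrix.of fun k i => eval w (pderiv i (p k))).mulVecLin
  have h4 : ∀ η, (Matrix.of (A η)).mulVec v = Φ η := fun η => funext fun k => by
    refine Eq.trans ?_ (hE η (p k))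
    simp [hA, hw, Matrix.mulVec, dotProduct]
  obtain ⟨η, rfl⟩ := S.span hv h0 (by simp [hσ]) Φ ((injective_iff_map_eq_zero _).2 fun η k => by
    have h5 : ∀ q : MvPolynomial σ ℂ, q.IsHomogeneous (e + 1) → eval w (D η q) = 0 := fun q hq => by
      obtain ⟨a, rfl⟩ := hs q hq
      simp only [map_sum, Derivation.map_smul, smul_eval]
      exact Finset.sum_eq_zero fun l _ => mul_eq_zero_of_right _ ((hE η _).trans (congrFun k l))
    have h6 : ∀ i, eval w (D η (X i)) = η i := fun i => by simp [hE, Pi.single_apply, apply_ite]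
    have h7 := h5 _ (isHomogeneous_X_pow j _)
    rw [Derivation.leibniz_pow] at h7
    have h8 : η j = 0 := by simpa [h6, hj, Nat.cast_add_one_ne_zero] using h7
    funext i
    have h9 := h5 _ ((isHomogeneous_X_pow j e).mul (isHomogeneous_X ℂ i))
    rw [Derivation.leibniz, Derivation.leibniz_pow] at h9
    simpa [h6, h8, hj] using h9) (fun η => h4 η ▸ h3 η v hv) hξ
  exact ⟨_, h3 η, h4 η⟩

theorem Md.trv {S : CD n N c m} {M : Model n 1} {u : Fin N → M.K} (h : Md S M u)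
    (P : Geo861.PD M n) : Trv S.Z := by
  have h1 : ∀ q : MvPolynomial (Fin 1 × Fin (n + 1)) ℂ,
      Geo861.MH (P.e 0) q ↔ q.IsHomogeneous (P.e 0 0 - 1 + 1) := fun q => by
    rw [Nat.sub_add_cancel (P.e_pos 0 0)]
    refine forall_congr' fun s => imp_congr mem_support_iff ?_
    rw [Fin.forall_fin_one, show Finsupp.weight 1 s = s.degree from
      (DFunLike.congr_fun Finsupp.degree_eq_weight_one s).symm, Finsupp.degree_eq_sum,
      Fintype.sum_prod_type, Fin.sum_univ_one]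
  have h2 : ∀ R, aeval (fun k => P.θ (M.el 0 (h.x k))) R = P.θ (h.ρ R) := fun R =>
    (comp_aeval_apply _ P.θ R).symm
  refine S.ver (by simp) (fun k => (h1 _).1 (P.hom 0 (h.x k))) (fun q hq => ?_)
    (fun R hR ⟨d, hd⟩ => ?_) fun R hR => h.ρ_ker (P.inj (by rw [← h2, hR, map_zero]))
  · obtain ⟨v, rfl⟩ := P.surj 0 q ((h1 q).2 hq)
    obtain ⟨a, ha⟩ := (Submodule.mem_span_range_iff_exists_fun ℂ).1
      (h.V ▸ v.2 : v.1 ∈ Submodule.span ℂ (range u))
    refine ⟨a, ?_⟩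
    simp only [← map_smul, ← map_sum]
    refine congrArg P.θ (Subtype.ext ?_)
    simp [Model.el, ← ha, Md.x, Finset.sum_mul, Algebra.smul_def, mul_assoc]
  · rw [h2, show h.ρ R = 0 from Subtype.ext (by
      rw [h.ρ_hom hd, (h.ker R d hd).2 hR, map_zero, mul_zero]; rfl), map_zero]

/-- **the equality case** -/
theorem Md.eq {S : CD n N c m} {M : Model n 1} {u : Fin N → M.K} (h : Md S M u) (hn : 0 < n)
    (e1 : M.c = c) (e2 : M.m 0 = m) (hC : F.Complete M)
    (hI : ∀ (d : ℕ) (φ : Mp.BF d N), Cr S.Z φ → 0 < d → c * (n + 1) ≤ m * d) : Trv S.Z := by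
  obtain ⟨g, k1, k2⟩ := exists_dom M hn
  have h0 : ∀ g : Fin 1 → ℕ, g ≠ 0 → ∀ i, 0 < g i := fun g g0 i =>
    Nat.pos_of_ne_zero fun e => g0 (funext fun j => by rw [Subsingleton.elim j i, e]; rfl)
  obtain ⟨P⟩ := H507.eqCore n 1 M (n + 1) one_pos (by omega) (fun g G hG g0 => by
      rw [Model.kdeg, Fin.sum_univ_one, e1, e2]
      exact hI _ _ (h.cr hG) (h0 g g0 0)) hC (fun g _ _ => h0 g) (fun _ => g)
    (linearIndependent_unique_iff.2 fun e => k1 (by simpa using congrFun e 0)) (fun _ => k2)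
    (one_mul _).symm
  exact h.trv P

end Vale.Agent.P280Z.Br
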