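import Vale.Agent.P280Z.Br.Top
import Vale.Agent.P280Z.Br.Pn
import Vale.Agent.P280Z.Gp.Full
import Vale.Agent.P280Z.En.Fld
import Vale.Agent.P280Z.Ld.Api
import Vale.Agent.P281Z.En.Kap2
import Mathlib.Analysis.Polynomial.CauchyBound

/-!
# P280, bridge: complete linear systems, vector fields
-/

open scoped Manifold ContDiff Topology Matrix
open MvPolynomial Set Filter Function
open Vale.Agent.P272.K Vale.Agent.P285.H281.FD Vale.Agent.P281Z
open Vale.Agent.P277Z (Hol at_chart)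
open Vale.Agent.P277Z.Slc (dd dd_congr)
open Vale.Agent.P277 (Bd.inv)
open Vale.Agent.P276.M (Model)

noncomputable section

namespace Vale.Agent.P280Z.Br

variable {n N c m : ℕ}

theorem int_of {R K : Type} [CommRing R] [Field K] (φ : R →+* K) {x : K}
    (h : ∀ A : ValuationSubring K, (∀ a, φ a ∈ A) → x ∈ A) : φ.IsIntegralElem x := by
  have h1 : x ∈ (integralClosure (Subring.closure (range φ)) K).toSubring := by
    rw [← iInf_valuationSubring_superset]
    exact Subring.mem_iInf.2 fun V => h V.1 fun a => V.2 ⟨a, rfl⟩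
  let ψ : R →+* Subring.closure (range φ) := φ.codRestrict _ fun a => Subring.subset_closure ⟨a, rfl⟩
  have h2 : Surjective ψ := fun y => by
    obtain ⟨a, ha⟩ := (Subring.closure_eq φ.range).le y.2
    exact ⟨a, Subtype.ext ha⟩
  obtain ⟨p, h3, h4⟩ := h1
  obtain ⟨q, rfl, -, h5⟩ := Polynomial.lifts_and_degree_eq_and_monic
    ((Polynomial.mem_lifts p).2 (Polynomial.map_surjective ψ h2 p)) h3
  exact ⟨q, h5, (Polynomial.eval₂_map _ _ _).symm.trans h4⟩

theorem root_le {R : Type} [CommRing R] (φ : R →+* ℂ) {F : Polynomial R} (h : F.Monic) {t : ℂ}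
    (k : F.eval₂ φ t = 0) : ‖t‖ ≤ ∑ i ∈ Finset.range F.natDegree, ‖φ (F.coeff i)‖ + 1 := by
  have h1 := Polynomial.IsRoot.norm_lt_cauchyBound (h.map φ).ne_zero
    ((Polynomial.eval_map φ t).trans k)
  rw [Polynomial.cauchyBound, (h.map φ).leadingCoeff, nnnorm_one, div_one, h.natDegree_map] at h1
  have h2 := h1.le.trans (add_le_add_left (Finset.sup_le fun i hi => Finset.single_le_sum
    (f := fun i => ‖(F.map φ).coeff i‖₊) (fun _ _ => zero_le) hi) 1)
  simpa [← NNReal.coe_le_coe] using h2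

namespace Md

variable {S : CD n N c m} {M : Model n 1} {u : Fin N → M.K} (h : Md S M u)
include h

theorem ker_sl {k : Fin N} (h0 : u k ≠ 0) {Q : Pl N} (hQ : aeval (fun j => (u k)⁻¹ * u j) Q = 0) :
    Q ∈ IZ (sl S.Z (X k)) := by
  obtain ⟨d, Q', h1, h2⟩ := homog (isHomogeneous_X ℂ k) Q
  rw [h2 _ u _ (by simp [h0]), mul_eq_zero, or_iff_right (pow_ne_zero _ (inv_ne_zero h0)),
    h.ker Q' d h1] at hQ
  exact fun v hv => by rw [S.hg_eval h2 hv, hQ v hv.1]

theorem frac {v : M.K} (hv : v ≠ 0) : ∃ (d : ℕ) (P Q : Pl N), P.IsHomogeneous (d + 1) ∧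
    Q.IsHomogeneous d ∧ aeval u Q ≠ 0 ∧ aeval u P = aeval u Q * v := by
  have h1 : ⊤ ≤ IntermediateField.adjoin ℂ (range u) := M.genV ▸ IntermediateField.adjoin_le_iff.2
    (iUnion_subset fun i => by
      rw [Subsingleton.elim i 0, h.V]
      exact (Submodule.span_le (p := (IntermediateField.adjoin ℂ (range u)).toSubalgebra.toSubmodule)).2
        (IntermediateField.subset_adjoin ℂ (range u)))
  obtain ⟨P, Q, rfl⟩ := (IntermediateField.mem_adjoin_range_iff ℂ u v).1 (h1 trivial)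
  obtain ⟨l, hl, e⟩ := exists_lin (h.V ▸ M.oneV 0 : (1 : M.K) ∈ Submodule.span ℂ (range u))
  obtain ⟨d, P', a1, a2⟩ := homog hl P
  obtain ⟨d', Q', b1, b2⟩ := homog hl Q
  have a3 := a2 _ u 1 (by rw [e, one_mul])
  have b3 := b2 _ u 1 (by rw [e, one_mul])
  simp only [one_mul, one_pow] at a3 b3
  have h2 : aeval u Q ≠ 0 := fun k => hv (by rw [k, div_zero])
  refine ⟨d + d', P' * l ^ (d' + 1), l ^ d * Q', a1.mul (by simpa using hl.pow (d' + 1)),
    IsHomogeneous.mul (by simpa using hl.pow d) b1, ?_, ?_⟩ <;>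
    simp only [map_mul, map_pow, e, one_pow, one_mul, mul_one, ← a3, ← b3]
  exacts [h2, (mul_div_cancel₀ _ h2).symm]

theorem int {v : M.K} {d : ℕ} {P Q : Pl N} (hP : P.IsHomogeneous (d + 1)) (hQ : Q.IsHomogeneous d)
    (e : aeval u P = aeval u Q * v) (hv : ∀ A : ValuationSubring M.K,
      (∀ a : ℂ, algebraMap ℂ M.K a ∈ A) → ∀ f : Fin 1 → M.K,
        (∀ j, f j ∈ M.V j ∧ f j ≠ 0 ∧ ∀ w ∈ M.V j, w / f j ∈ A) → v / f 0 ∈ A)
    {k : Fin N} (h0 : u k ≠ 0) : ∃ F : Polynomial (Pl N), F.Monic ∧ ∀ z ∈ sl S.Z (X k),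
      eval z Q ≠ 0 → F.eval₂ (eval z) (eval z P / eval z Q) = 0 := by
  let φ := (aeval (fun j => (u k)⁻¹ * u j) : Pl N →ₐ[ℂ] M.K)
  obtain ⟨F, h1, h2⟩ := int_of φ.toRingHom (x := v / u k) fun A hA =>
    hv A (fun a => algHom_C φ a ▸ hA (C a)) (fun _ => u k) fun j => by
      obtain rfl := Subsingleton.elim 0 j
      refine ⟨(h.x k).2, h0, fun w hw => ?_⟩
      obtain ⟨l, hl, rfl⟩ := exists_lin (h.V ▸ hw : w ∈ Submodule.span ℂ (range u))
      rw [div_eq_inv_mul, ← pow_one (u k)⁻¹, ← aeval_sc hl]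
      exact hA l
  have h3 : ∀ {B : Type} [CommRing B] (ψ : Pl N →+* B) (t : B), ψ P = ψ Q * t →
      ψ ((F.scaleRoots Q).eval P) = ψ Q ^ F.natDegree * F.eval₂ ψ t := fun ψ t k => by
    rw [← Polynomial.eval₂_at_apply, k, Polynomial.scaleRoots_eval₂_mul]
  refine ⟨F, h1, fun z hz k1 => (mul_eq_zero.1 ((h3 (eval z) _ (mul_div_cancel₀ _ k1).symm).symm.trans
    (h.ker_sl h0 ((h3 φ.toRingHom _ ?_).trans (by rw [h2, mul_zero])) z hz))).resolve_left
      (pow_ne_zero _ k1)⟩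
  refine (aeval_sc hP _ u).trans (Eq.trans ?_ (congrArg (· * _) (aeval_sc hQ _ u)).symm)
  rw [e, div_eq_inv_mul]
  ring

end Md

/-- all the sections of the hyperplane bundle are linear forms -/
def Cpl (D : Dat n) : Prop :=
  ∀ σ, IsSec n D.H σ → ∃ l : Cm D.N, ∀ b, ∀ x ∈ D.H.U b, σ b x = l ⬝ᵥ D.s b x

theorem complete {D : Dat n} (hP : Cv.Pt D) (hD : Cpl D) {S : CD n D.N c m} (hS : S.Z = Zc D)
    {M : Model n 1} {u : Fin D.N → M.K} (h : Md S M u) : P276.F.Complete M := by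
  intro i v hv
  obtain rfl := Subsingleton.elim 0 i
  by_cases v0 : v = 0
  · exact v0 ▸ zero_mem _
  obtain ⟨d, P, Q, h1, h2, h3, h4⟩ := h.frac v0
  have := D.conn
  have k0 : ∀ a b x, x ∈ D.H.U a → x ∈ D.H.U b → D.s a x = D.H.g a b x • D.s b x :=
    fun a b x ha hb => funext fun j => (D.sec j).change a b x ha hb
  have k1 : ∀ a, ∀ x ∈ D.H.U a, eval (D.s a x) Q = 0 → ∀ b, x ∈ D.H.U b → eval (D.s b x) Q = 0 :=
    fun a x hx k b hb => by rw [k0 b a x hb hx, eval_sc h2, k, mul_zero]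
  have k2 : ∀ (R : Pl D.N) a, ∀ x ∈ D.H.U a, Hol n (fun y => eval (D.s a y) R) x := fun R a x ha =>
    (anV ha).cmp (AnalyticOnNhd.eval_mvPolynomial R _ trivial)
  have k3 : Thin n {x | ∀ a, x ∈ D.H.U a → eval (D.s a x) Q = 0} := An.thin (fun x => by
    obtain ⟨a, ha⟩ := D.lb.cover x
    refine ⟨1, fun _ y => eval (D.s a y) Q, fun _ => k2 Q a x ha, ?_⟩
    filter_upwards [lb_near D.lb ha] with y hy
    exact ⟨fun k _ => k a hy, fun k => k1 a y hy (k 0)⟩) fun e =>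
      h3 ((h.ker Q d h2).2 (hS ▸ mem_iz hP h2 fun a x => (e.ge trivial :) a))
  obtain ⟨t, t1, t2, t3⟩ := P281Z.En.K2.ext_sec (s := fun a x => eval (D.s a x) P / eval (D.s a x) Q) D.lb k3
    isOpen_univ (fun a x _ ha k => (k2 P a x ha).div (k2 Q a x ha) fun e => k (k1 a x ha e))
    (fun a b x _ ha hb _ => by
      rw [k0 a b x ha hb, eval_sc h1, eval_sc h2, pow_succ', mul_assoc, mul_div_assoc,
        mul_div_mul_left _ _ (pow_ne_zero _ (D.lb.ne_zero a b x ha hb))]) fun a x _ ha => by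
      obtain ⟨k, hk⟩ := ne_iff.1 (D.lifts.nz a x ha)
      obtain ⟨F, f1, f2⟩ := h.int h1 h2 h4 hv (k := k) fun e => hk (by
        simpa using (h.ker (X k) 1 (isHomogeneous_X ℂ k)).1 (by simpa using e) _
          (hS ▸ (near ha).self_of_nhds))
      have f3 := (anV ha).cont
      have f4 := (continuous_apply k).continuousAt.comp f3
      have f5 : ContinuousAt (fun y => ‖D.s a y k‖ * (∑ i ∈ Finset.range F.natDegree,
          ‖eval ((D.s a y k)⁻¹ • D.s a y) (F.coeff i)‖ + 1)) x :=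
        f4.norm.mul ((tendsto_finsetSum _ fun i _ => ((continuous_eval _).continuousAt.comp
          ((f4.inv₀ hk).smul f3)).norm).add continuousAt_const)
      obtain ⟨C, f6⟩ := f5.isBoundedUnder_le
      refine ⟨C, ?_⟩
      filter_upwards [eventually_map.1 f6, f4.eventually_ne hk, lb_near D.lb ha] with y g1 g2 g3 g4
      have g5 : D.s a y k ≠ 0 := g2
      have g6 := fun e => g4 (k1 a y g3 e)
      have g7 := root_le _ f1 (f2 _ (S.sc_mem (isHomogeneous_X ℂ k) (hS ▸ (near g3).self_of_nhds)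
        (by simpa using g5)) (by simpa [eval_sc h2, g5] using g6))
      rw [eval_X, eval_sc h1, eval_sc h2, pow_succ', mul_assoc, mul_div_assoc,
        mul_div_mul_left _ _ (pow_ne_zero _ (inv_ne_zero g5)), norm_mul, norm_inv,
        inv_mul_le_iff₀ (norm_pos_iff.2 g5)] at g7
      exact g7.trans g1
  obtain ⟨l, hl⟩ := hD t (isSec_of (fun a x => t1 a x trivial) fun a b x => t2 a b x trivial)
  have h5 : (∑ k, C (l k) * X k : Pl D.N).IsHomogeneous 1 := IsHomogeneous.sum _ _ _ fun k _ => by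
    simpa using (isHomogeneous_C (Fin D.N) _).mul (isHomogeneous_X ℂ k)
  have h6 := ((add_comm 1 d ▸ h5.mul h2).sub h1).mul h2
  have h7 := (h.ker _ _ h6).2 (hS ▸ mem_iz hP h6 fun a x ha => by
    by_cases e : eval (D.s a x) Q = 0
    · rw [map_mul, e, mul_zero]
    · have := (hl a x ha).symm.trans (t3 a x trivial ha fun k => e (k a ha))
      rw [eq_div_iff e] at this
      simp [← this, dotProduct])
  rw [map_mul, map_sub, map_mul, h4, mul_eq_zero, or_iff_left h3, mul_comm, ← mul_sub, mul_eq_zero,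
    or_iff_right h3, sub_eq_zero] at h7
  rw [← h7, map_sum]
  exact sum_mem fun k _ => by
    simpa [Algebra.smul_def, Md.x] using Submodule.smul_mem _ (l k) (h.x k).2

theorem th_of_vel {Z : Set (Fin N → ℂ)} {v ξ : Fin N → ℂ} (h : Vel Z v ξ) : TH Z v ξ :=
  fun P hP _ => by
    obtain ⟨γ, h1, rfl, h3⟩ := h
    exact (der_eval h1 P).unique ((hasDerivAt_const _ _).congr_of_eventuallyEq
      (h3.mono fun ε => hP _))

/-- **vector fields** -/
theorem gen_of {D : Dat n} (hP : Cv.Pt D) (h : Trv (Zc D)) : Gp.Gen n D.X.X := by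
  have e1 : ∀ a, ∀ x ∈ D.H.U a, (fun j => Ld.nm D.H (fun b y => D.s b y j) a x) = D.s a x :=
    fun a x ha => funext fun j => Ld.nm_of ha
  have e2 : ∀ a, ∀ x ∈ D.H.U a, ∀ e : Chart n D.X.X, At e x → ∀ v j,
      dd (Ld.nm D.H (fun b y => D.s b y j) a) e x v = ds (D.s a) e x v j := fun a x ha e he v j =>
    DFunLike.congr_fun (dd_congr ((lb_near D.lb ha).mono fun y hy => Ld.nm_of hy) he) v
  have hV : Ld.Va n D.H fun j => Ld.nm D.H fun b y => D.s b y j := by
    refine ⟨D.lb, fun j => Ld.nm_mem D.lb (D.sec j), eq_empty_of_forall_notMem fun x hx => ?_,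
      fun x y a b ha hb k => ?_, fun x a e v ha he k => ?_⟩
    · obtain ⟨a, ha⟩ := D.lb.cover x
      obtain ⟨j, hj⟩ := ne_iff.1 (D.lifts.nz a x ha)
      exact hx j (Ld.nm_nz.2 ((nz_iff D.lb (fun a b => (D.sec j).change a b x) ha).2 hj))
    · obtain ⟨l, hl⟩ := ne_iff.1 (D.lifts.nz b y hb)
      refine D.lifts.inj a b x y ha hb ⟨D.s a x l / D.s b y l, funext fun j => ?_⟩
      have := k j l
      simp only [Ld.nm_of ha, Ld.nm_of hb] at this
      rw [Pi.smul_apply, smul_eq_mul, div_mul_eq_mul_div, ← this, mul_div_cancel_right₀ _ hl]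
    · obtain ⟨l, hl⟩ := ne_iff.1 (D.lifts.nz a x ha)
      refine D.lifts.imm a x ha e he v (ds (D.s a) e x v l / D.s a x l)
        ((ds_fd (anV ha) he v).trans (funext fun j => ?_))
      have := k j l
      simp only [Ld.nm_of ha, e2 a x ha e he] at this
      rw [Pi.smul_apply, smul_eq_mul, div_mul_eq_mul_div, ← this, mul_div_cancel_right₀ _ hl]
  intro e x he v
  obtain ⟨a, ha⟩ := D.lb.cover x
  have h1 := vel (zc_smul hP) (anV ha) he (near ha) one_ne_zero v 0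
  rw [one_smul] at h1
  obtain ⟨A, h2, h3⟩ := h _ (near ha).self_of_nhds (D.lifts.nz a x ha) _ (th_of_vel h1)
  obtain ⟨ξ, h4, h5⟩ := En.fld D.X D.H _ _ A.mulVecLin hV fun a x e ha he => by
    obtain ⟨v, t, k⟩ := tan hP ha he one_ne_zero (ξ := A *ᵥ D.s a x)
      (by rw [one_smul]; exact h2 _ (near ha).self_of_nhds)
    refine ⟨t, v, ?_⟩
    simp only [e2 a x ha e he, Ld.nm_of ha]
    exact k.trans (add_comm _ _)
  refine ⟨ξ, h4, En.Fld.R.uniq hV ha he (h5 a x e ha he) ⟨0, ?_⟩⟩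
  simp only [e2 a x ha e he, Ld.nm_of ha]
  exact h3.trans (add_comm _ _)

theorem om_ap {X : Type} [TopologicalSpace X] [ChartedSpace (Cm n) X] [IsManifold 𝓘(ℂ, Cm n) ω X]
    {N' : ℕ} (s : X → Cm N) (t : X → Cm N') (α : Fin (n + 1) → Fin N) (e : Chart n X) (x : X) :
    om (fun b => Fin.castAdd N' (α b)) (fun y => Fin.append (s y) (t y)) e x = om α s e x := by
  rw [om_id, om_id α]
  simp only [Fin.append_left]

theorem ap_lifts {X κ : Type} [TopologicalSpace X] [ChartedSpace (Cm n) X] {O : κ → Set X} {N' : ℕ}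
    {s : κ → X → Cm N} {t : κ → X → Cm N'} (hs : Gp.Lifts n O s) (ht : Gp.Lifts n O t)
    (h : ∀ a b x, x ∈ O a → x ∈ O b → ∃ c : ℂ,
      Fin.append (s a x) (t a x) = c • Fin.append (s b x) (t b x)) :
    Gp.Lifts n O fun a x => Fin.append (s a x) (t a x) := by
  have h1 : ∀ a, ∀ x ∈ O a, AnV n (fun x => Fin.append (s a x) (t a x)) x := fun a x k =>
    AnV.pi fun i => Fin.addCases (fun j => by simpa using AnV.hol (hs.hol a x k) j)
      (fun j => by simpa using AnV.hol (ht.hol a x k) j) i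
  refine ⟨hs.opn, hs.cov, h1, fun a x k e => hs.nz a x k (funext fun j => ?_), h,
    fun a b x y ha hb ⟨c, hc⟩ => hs.inj a b x y ha hb ⟨c, funext fun j => ?_⟩,
    fun a x k e he ξ c hc => hs.imm a x k e he ξ c ?_⟩
  · simpa using congrFun e (Fin.castAdd N' j)
  · simpa using congrFun hc (Fin.castAdd N' j)
  · rw [ds_fd (h1 a x k) he] at hc
    rw [ds_fd (hs.hol a x k) he]
    exact funext fun j => by simpa [ds] using congrFun hc (Fin.castAdd N' j)

/-- **the complete embedding** -/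
theorem fano_cpl (V : Mf n) (hn : 0 < n) (h : Fano n V.X) : ∃ (D : Dat n) (c : ℕ), 0 < c ∧
    D.X = V ∧ D.H = (Bd.inv (Bd.can n D.X.X)).pow c ∧ Cpl D ∧ ∃ S : CD n D.N c 1, S.Z = Zc D := by
  obtain ⟨m, N, _, _, _, _, s, hm, -, hs, hl, -⟩ := Cv.eqs n V _ h.1.toNonempty lb_acan h.2
  obtain ⟨d, hd⟩ : ∃ d, d + 1 + 1 = m * (n + 1) := ⟨m * (n + 1) - 2, by
    have : 1 * 2 ≤ m * (n + 1) := Nat.mul_le_mul hm (Nat.succ_le_succ hn)
    omega⟩
  have hq : 2 * d + 1 + 1 = 2 * (d + 1) := rfl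
  have h1 := nw_sec hs hd hq
  have h2 := nw_lifts hl fun a b x ha hb => ⟨_, funext fun i => (h1 i).change a b x ha hb⟩
  obtain ⟨N', t, t1, t2, -, t3⟩ := Gp.full n _ V.X _ _ (lb_pow lb_acan _) h1 h2
  have k1 : ∀ i, IsSec n ((Bd.inv (Bd.can n V.X)).pow (2 * m * (d + 1))) fun b x =>
      Fin.append (nw s (2 * d + 1) (2 * m) b x) (t b x) i := Fin.addCases
    (fun j => by simpa only [Fin.append_left] using h1 j) fun j => by
      simpa only [Fin.append_right] using t1 j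
  have k2 := ap_lifts h2 t2 fun a b x ha hb => ⟨_, funext fun i => (k1 i).change a b x ha hb⟩
  obtain ⟨r, δ, P, pt, h3, h4⟩ := Cv.cone_of n _ V _ _ _ h.1.toNonempty k2
  let D : Dat n := ⟨V, _, r, δ, P, pt, _, _, h.1, h3, lb_pow lb_acan _, k1, k2, h4⟩
  have h5 : 0 < 2 * m * (d + 1) := by positivity
  have h6 := fun (α : Fin (n + 1) → Fin N) a x (k : At a x) =>
    (om_ap _ (t a) _ a x).trans (nw_om (q := 2 * d + 1) (k := 2 * m) (hl.hol a x k) k α)
  refine ⟨D, _, h5, rfl, rfl, fun σ hσ => (t3 σ hσ).elim fun l hl => ⟨Fin.append 0 l,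
    fun b x hb => (hl b x hb).trans ?_⟩, exists_cd (Cv.pt_all n D) id (fun _ _ k => k)
    (fun (α : Fin (n + 1) → Fin N) b => Fin.castAdd N' (Fintype.equivFin (Ix n N) (.inl (α b, α 0))))
    (fun α => X (Fin.castAdd N' (Fintype.equivFin (Ix n N) (.inl (α 0, α 0)))) ^
      ((2 * d + 1) * (n + 1) * m) * X (Fin.castAdd N' (Fintype.equivFin (Ix n N) (.inr α))) ^ (d + 1))
    h5.ne' (d := (2 * d + 1) * (n + 1) * m + (d + 1)) (by rw [add_assoc, hd]; ring)
    (fun α => (isHomogeneous_X_pow _ _).mul (isHomogeneous_X_pow _ _)) (fun α a x k => ?_)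
    (fun α a x k h => ?_) fun a x k => ?_⟩
  · simp [D, dotProduct, Fin.sum_univ_add]
  · refine Eq.trans ?_ (congrArg (· ^ _) (h6 α a x k)).symm
    simp only [map_mul, map_pow, eval_X]
    refine (congrArg₂ (fun u v => u ^ _ * v ^ _) ((Fin.append_left _ _ _).trans (nw_l a x _ _))
      ((Fin.append_left _ _ _).trans (nw_r a x _))).trans ?_
    ring
  · have h7 : s a x (α 0) ≠ 0 := fun e =>
      left_ne_zero_of_mul ((h6 α a x k).symm.trans_ne h) (by simp [e])
    exact ((Fin.append_left _ _ _).trans (nw_l a x _ _)).trans_ne (mul_ne_zero h7 (pow_ne_zero _ h7))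
  · obtain ⟨α, k1, k2⟩ := om_ex (e := a) (hl.nz a x k) fun v c h =>
      hl.imm a x k a k v c ((ds_fd (hl.hol a x k) k v).trans h)
    exact ⟨α, (h6 α a x k).trans_ne (mul_ne_zero (pow_ne_zero _ (pow_ne_zero _ k2)) k1)⟩

/-- **PN**: Fano manifolds of pseudoindex at least `n + 1` -/
def PN : Prop := ∀ (n : ℕ) (V : Mf n), Fano n V.X → (∀ (F : Cm 2 → V.X) (a : ℤ), RC n F →
  DegL (Bd.inv (Bd.can n V.X)) F a → n + 1 ≤ a) → Gp.Gen n V.X

theorem pn : PN := by
  intro n V h hI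
  rcases n.eq_zero_or_pos with rfl | hn
  · exact fun e x _ v => ⟨0, ⟨fun _ _ _ => analyticAt_const, fun _ _ _ _ _ => Subsingleton.elim _ _⟩,
      Subsingleton.elim _ _⟩
  obtain ⟨D, c, hc, rfl, hH, hD, S, hS⟩ := fano_cpl V hn h
  obtain ⟨M, u, e1, e2, h1, h2⟩ := exists_model S hc one_pos
  have h3 : Md S M u := ⟨h1, h2⟩
  refine gen_of (Cv.pt_all n D) (hS ▸ h3.eq hn e1 e2 (complete (Cv.pt_all n D) hD hS h3)
    fun d φ k hd => ?_)
  have h4 := crv (hS ▸ k)
  obtain ⟨k1, k2⟩ := Cv.rcp_of Cv.pt_all n D d φ h4 hd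
  obtain ⟨b, v, k3⟩ := Cv.frm n D d φ h4
  have k4 := Cv.degk_of Cv.pt_all n D d φ h4 b v k3
  have k5 := Cv.degu n D.X _ _ _ _ D.lb k1 k2 (hH ▸ DegL.pow k4 c)
  have k6 := mul_le_mul_of_nonneg_left (hI _ _ k1 k4) (Int.natCast_nonneg c)
  rw [← k5] at k6
  rw [one_mul]
  exact_mod_cast k6

theorem io7 (V : Mf n) (h : Fano n V.X) (k : Iota n V.X (n + 1)) : Gp.Gen n V.X := pn n V h k.2

end Vale.Agent.P280Z.Br
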