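import Vale.Agent.P280Z.Br.Cn
import Vale.Agent.P276.M.CoreFinal
import Vale.Agent.P276.M.Input
import Vale.Agent.P276.H687.PDefAdd
import Vale.Agent.P276.H625.LatGen

/-!
# P280, bridge: a rational curve of small degree
-/

open MvPolynomial Set Function
open Vale.Agent.P276 Vale.Agent.P276.M

noncomputable section

namespace Vale.Agent.P280Z.Br

variable {n N c m : ℕ}

theorem exists_dom (M : Model n 1) (hn : 0 < n) : ∃ g : Fin 1 → ℕ, g 0 ≠ 0 ∧ M.Dom g := by
  classical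
  by_contra! hc
  obtain ⟨m, θ, hm, hθ, h⟩ := RCTop.pSpan n 1 M 1 fun g L i1 i2 i3 F hF => by
    rw [Fin.sum_univ_one, Pi.one_apply, one_mul, Nat.cast_eq_zero]
    by_contra k
    exact hc g k ⟨L, i1, i2, i3, F, hF⟩
  have gen : ∀ A : ValuationSubring M.K, (∀ a : ℂ, algebraMap ℂ M.K a ∈ A) →
      ∃ f, f ≠ 0 ∧ (∀ v ∈ M.V 0, v / f ∈ A) ∧ (θ / f ^ m)⁻¹ ∈ A := fun A hA => by
    obtain ⟨s, hs⟩ := (Submodule.fg_iff_finiteDimensional (M.V 0)).2 (M.finV 0)
    obtain ⟨f, h1, h2⟩ := (insert 1 s).exists_max_image A.valuation (Finset.insert_nonempty _ _)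
    have f0 : f ≠ 0 := fun e => by simpa [e] using h2 1 (Finset.mem_insert_self _ _)
    have h3 : ∀ v ∈ M.V 0, v / f ∈ A := fun v hv => by
      rw [← hs] at hv
      induction hv using Submodule.span_induction with
      | mem v hv =>
        rw [← A.valuation_le_one_iff, map_div₀]
        exact div_le_one_of_le₀ (h2 v (Finset.mem_insert_of_mem hv)) zero_le
      | zero => simp
      | add a b _ _ k1 k2 => exact add_div a b f ▸ add_mem k1 k2
      | smul a b _ k1 => rw [Algebra.smul_def, mul_div_assoc]; exact mul_mem (hA a) k1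
    have h4 : f ∈ M.V 0 := (Finset.mem_insert.1 h1).elim (fun e => e ▸ M.oneV 0) fun k =>
      hs ▸ Submodule.subset_span k
    refine ⟨f, f0, h3, ?_⟩
    simpa using (h A hA (fun _ => f) fun i => Subsingleton.elim 0 i ▸ ⟨h4, f0, h3⟩).2
  obtain ⟨a, ha⟩ := const_of (x := θ⁻¹) fun A hA => by
    obtain ⟨f, h1, h2, h3⟩ := gen A hA
    rw [show θ⁻¹ = (θ / f ^ m)⁻¹ * (1 / f) ^ m by rw [div_pow, one_pow]; field_simp]
    exact mul_mem h3 (pow_mem (h2 1 (M.oneV 0)) _)
  have h5 : (⊤ : IntermediateField ℂ M.K) ≤ ⊥ := M.genV ▸ IntermediateField.adjoin_le_iff.2 (by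
    refine iUnion_subset fun i v hv => const_of fun A hA => ?_
    obtain ⟨f, h1, h2, h3⟩ := gen A hA
    rw [← A.valuation_le_one_iff, ← pow_le_one_iff hm.ne', ← map_pow, A.valuation_le_one_iff,
      show v ^ m = (v / f) ^ m * (θ / f ^ m)⁻¹ * algebraMap ℂ M.K a⁻¹ by
        rw [map_inv₀, ha, div_pow]; field_simp]
    exact mul_mem (mul_mem (pow_mem (h2 v (Subsingleton.elim i 0 ▸ hv)) _) h3) (hA _))
  obtain ⟨b, hb⟩ := h5 (trivial : M.z ⟨0, hn⟩ ∈ _)
  exact M.trans.1.transcendental ⟨0, hn⟩ (hb ▸ isAlgebraic_algebraMap b)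

/-- **a curve of small degree** -/
theorem CD.small (S : CD n N c m) (hc : 0 < c) (hm : 0 < m) (hn : 0 < n) :
    ∃ (d : ℕ) (φ : Mp.BF d N), Cr S.Z φ ∧ 0 < d ∧ m * d < c * (n + 2) := by
  obtain ⟨M, u, e1, e2, h1, h2⟩ := exists_model S hc hm
  have h : Md S M u := ⟨h1, h2⟩
  by_contra! hc
  obtain ⟨g, k1, k2⟩ := exists_dom M hn
  have := input_of (coreIn_of core H687.pDef (fun _ _ M => H625.exists_gen M) H687.pAdd) n 1 M
    (n + 2) (fun g G hG g0 => by
      rw [Model.kdeg, Fin.sum_univ_one, e1, e2]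
      exact hc _ _ (h.cr hG) (Nat.pos_of_ne_zero fun e => g0 (funext fun i => by
        rw [Subsingleton.elim i 0, e]; rfl))) (fun _ => g)
    (linearIndependent_unique_iff.2 fun e => k1 (by simpa using congrFun e 0)) fun _ => k2
  omega

end Vale.Agent.P280Z.Br
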