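import Mathlib

/-!
# P280, bridge: the local structure of the vanishing ideal at a point with enough arcs
-/

open MvPolynomial Filter Topology Asymptotics Set

noncomputable section

namespace Vale.Agent.P280Z.Br

/-- polynomials -/
abbrev Pl (N : ℕ) : Type := MvPolynomial (Fin N) ℂ

variable {N : ℕ}

/-- the differential of `Q` at `w` -/
def dP (Q : Pl N) (w ξ : Fin N → ℂ) : ℂ := ∑ k, eval w (pderiv k Q) * ξ k

/-- the vanishing ideal -/
def IZ (Z : Set (Fin N → ℂ)) : Ideal (Pl N) where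
  carrier := {Q | ∀ v ∈ Z, eval v Q = 0}
  zero_mem' _ _ := map_zero _
  add_mem' h1 h2 v hv := by rw [map_add, h1 v hv, h2 v hv, add_zero]
  smul_mem' a Q h v hv := by rw [smul_eq_mul, map_mul, h v hv, mul_zero]

theorem mem_IZ {Z : Set (Fin N → ℂ)} {Q : Pl N} : Q ∈ IZ Z ↔ ∀ v ∈ Z, eval v Q = 0 := Iff.rfl

/-- the ideal of a point -/
def mx (w : Fin N → ℂ) : Ideal (Pl N) := RingHom.ker (eval w)

theorem mem_mx {w : Fin N → ℂ} {Q : Pl N} : Q ∈ mx w ↔ eval w Q = 0 := Iff.rfl

/-- `ξ` is the velocity of an arc in `Z` -/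
def Vel (Z : Set (Fin N → ℂ)) (w ξ : Fin N → ℂ) : Prop :=
  ∃ γ : ℂ → Fin N → ℂ, HasDerivAt γ ξ 0 ∧ γ 0 = w ∧ ∀ᶠ ε in 𝓝 0, γ ε ∈ Z

theorem aeval_sc {B : Type*} [CommRing B] [Algebra ℂ B] {P : Pl N} {d : ℕ}
    (hP : P.IsHomogeneous d) (t : B) (w : Fin N → B) :
    aeval (fun k => t * w k) P = t ^ d * aeval w P := by
  rw [aeval_def, aeval_def, eval₂_eq, eval₂_eq, Finset.mul_sum]
  refine Finset.sum_congr rfl fun m hm => ?_
  simp only [mul_pow]
  rw [Finset.prod_mul_distrib, Finset.prod_pow_eq_pow_sum, ← hP.degree_eq_sum_deg_support hm]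
  ring

theorem eval_sc {P : Pl N} {d : ℕ} (hP : P.IsHomogeneous d) (t : ℂ) (w : Fin N → ℂ) :
    eval (t • w) P = t ^ d * eval w P := aeval_sc hP t w

theorem taylor {B : Type*} [CommRing B] [Algebra ℂ B] (I : Ideal B) (a δ : Fin N → B)
    (h : ∀ k, δ k ∈ I) (Q : Pl N) :
    aeval (fun k => a k + δ k) Q - aeval a Q - ∑ k, aeval a (pderiv k Q) * δ k ∈ I ^ 2 := by
  classical
  induction Q using MvPolynomial.induction_on with
  | C c => simp
  | add P Q h1 h2 =>
    have := add_mem h1 h2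
    simp only [map_add, add_mul, Finset.sum_add_distrib]
    refine (congrArg (· ∈ I ^ 2) ?_).mp this
    ring
  | mul_X Q l h1 =>
    have e : ∑ k, aeval a (pderiv k (Q * X l)) * δ k =
        (∑ k, aeval a (pderiv k Q) * δ k) * a l + aeval a Q * δ l := by
      simp only [Derivation.leibniz, smul_eq_mul, map_add, map_mul, aeval_X, add_mul,
        Finset.sum_add_distrib, Finset.sum_mul]
      rw [add_comm]
      congr 1
      · exact Finset.sum_congr rfl fun k _ => by ring
      · rw [Finset.sum_eq_single l]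
        · simp
        · intro k _ hk
          rw [pderiv_X_of_ne (Ne.symm hk)]
          simp
        · simp
    have h2 : (∑ k, aeval a (pderiv k Q) * δ k) * δ l ∈ I ^ 2 := by
      rw [pow_two]
      exact Ideal.mul_mem_mul (Ideal.sum_mem _ fun k _ => I.mul_mem_left _ (h k)) (h l)
    have := add_mem (Ideal.mul_mem_right (a l + δ l) _ h1) h2
    rw [e]
    simp only [map_mul, aeval_X]
    refine (congrArg (· ∈ I ^ 2) ?_).mp this
    ring

/-- the linear part at `w` -/
def lin (Q : Pl N) (w : Fin N → ℂ) : Pl N := ∑ k, C (eval w (pderiv k Q)) * X k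

theorem lin_hom (Q : Pl N) (w : Fin N → ℂ) : (lin Q w).IsHomogeneous 1 :=
  IsHomogeneous.sum _ _ _ fun k _ => by
    simpa using (isHomogeneous_C (Fin N) _).mul (isHomogeneous_X ℂ k)

theorem aeval_C' (w : Fin N → ℂ) (Q : Pl N) :
    aeval (fun k => (C (w k) : Pl N)) Q = C (eval w Q) := by
  induction Q using MvPolynomial.induction_on with
  | C c => simp
  | add P Q h1 h2 => simp only [map_add, h1, h2]
  | mul_X Q l h1 => simp only [map_mul, h1, aeval_X, eval_X]

theorem tay1 {w : Fin N → ℂ} {Q : Pl N} (h : Q ∈ mx w) :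
    Q - ∑ k, C (eval w (pderiv k Q)) * (X k - C (w k)) ∈ mx w ^ 2 := by
  have := taylor (mx w) (fun k => (C (w k) : Pl N)) (fun k => X k - C (w k))
    (fun k => by simp [mem_mx]) Q
  simp only [add_sub_cancel, aeval_C'] at this
  rwa [show (aeval (fun k => (X k : Pl N)) Q) = Q from aeval_X_left_apply Q, mem_mx.1 h, map_zero,
    sub_zero] at this

theorem ev_diff (Q : Pl N) (w : Fin N → ℂ) : DifferentiableAt ℂ (fun v => eval v Q) w :=
  (AnalyticOnNhd.eval_mvPolynomial Q w trivial).differentiableAt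

theorem bigO {γ : ℂ → Fin N → ℂ} {ξ w : Fin N → ℂ} (h : HasDerivAt γ ξ 0) (h0 : γ 0 = w) (k : ℕ) :
    ∀ R ∈ mx w ^ k, (fun ε => eval (γ ε) R) =O[𝓝 0] fun ε => ε ^ k := by
  have hd : ∀ R : Pl N, DifferentiableAt ℂ (fun ε => eval (γ ε) R) 0 := fun R =>
    (ev_diff R (γ 0)).comp 0 h.differentiableAt
  induction k with
  | zero => exact fun R _ => by simpa using (hd R).continuousAt.tendsto.isBigO_one ℂ
  | succ k ih =>
    intro R hR
    rw [pow_succ] at hR
    refine Submodule.mul_induction_on hR (fun a ha b hb => ?_) fun a b h1 h2 => ?_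
    · have h1 := (hd b).hasDerivAt.isBigO_sub
      simp only [h0, mem_mx.1 hb, sub_zero] at h1
      simpa only [map_mul, pow_succ] using (ih a ha).mul h1
    · simpa only [map_add] using h1.add h2

theorem sup_mul' {G A B : Ideal (Pl N)} {x y : Pl N} (hx : x ∈ G ⊔ A) (hy : y ∈ G ⊔ B) :
    x * y ∈ G ⊔ A * B := by
  obtain ⟨g, hg, a, ha, rfl⟩ := Submodule.mem_sup.1 hx
  obtain ⟨g', hg', b, hb, rfl⟩ := Submodule.mem_sup.1 hy
  rw [show (g + a) * (g' + b) = (g * (g' + b) + a * g') + a * b by ring]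
  exact Submodule.add_mem_sup (add_mem (G.mul_mem_right _ hg) (G.mul_mem_left _ hg'))
    (Ideal.mul_mem_mul ha hb)

/-- the projection to the tangent space -/
def pj {r : ℕ} (F : Fin r → Pl N) (β : Fin r → Fin N → ℂ) (w ξ : Fin N → ℂ) : Fin N → ℂ :=
  fun k => ξ k - ∑ i, β i k * dP (F i) w ξ

theorem pj_smul {r : ℕ} (F : Fin r → Pl N) (β : Fin r → Fin N → ℂ) (w ξ : Fin N → ℂ) (t : ℂ) :
    pj F β w (t • ξ) = t • pj F β w ξ := by
  funext k
  simp only [pj, dP, Pi.smul_apply, smul_eq_mul, mul_sub, Finset.mul_sum]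
  congr 1
  exact Finset.sum_congr rfl fun i _ => Finset.sum_congr rfl fun l _ => by ring

theorem pj_cont {r : ℕ} (F : Fin r → Pl N) (β : Fin r → Fin N → ℂ) (w : Fin N → ℂ) :
    Continuous (pj F β w) := by
  unfold pj dP
  fun_prop

/-- **Krull**: near `w` the vanishing ideal is generated by the `F i` -/
theorem krull {Z : Set (Fin N → ℂ)} {w : Fin N → ℂ} (hw : w ∈ Z) {r : ℕ} {F : Fin r → Pl N}
    {β : Fin r → Fin N → ℂ} (hF : ∀ i, F i ∈ IZ Z) (hv : ∀ ξ, Vel Z w (pj F β w ξ))
    (hp : ∀ ξ, pj F β w (pj F β w ξ) = pj F β w ξ) {Q : Pl N} (hQ : Q ∈ IZ Z) :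
    ∃ g, eval w g ≠ 0 ∧ g * Q ∈ Ideal.span (range F) := by
  set G := Ideal.span (range F) with hG
  set m := mx w with hm
  have hGZ : G ≤ IZ Z := Ideal.span_le.2 (by rintro _ ⟨i, rfl⟩; exact hF i)
  let lam : Fin N → Pl N := fun k => (X k - C (w k)) -
    ∑ i, C (β i k) * ∑ l, C (eval w (pderiv l (F i))) * (X l - C (w l))
  have hlam : ∀ (x : Fin N → ℂ) (q : Pl N), eval x (aeval lam q) = eval (pj F β w (x - w)) q := by
    intro x q
    have : pj F β w (x - w) = fun k => eval x (lam k) := funext fun k => by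
      simp [pj, dP, lam]
    rw [this, aeval_def, eval_eval₂]
    have h2 : (eval x).comp (algebraMap ℂ (Pl N)) = RingHom.id ℂ := RingHom.ext fun c => by simp
    rw [h2]
    rfl
  have hX : ∀ k, X k - C (w k) - lam k ∈ G ⊔ m ^ 2 := fun k => by
    simp only [lam, sub_sub_cancel]
    refine Ideal.sum_mem _ fun i _ => Ideal.mul_mem_left _ _ ?_
    have h1 := tay1 (w := w) (Q := F i) (hF i w hw)
    have h2 := sub_mem (Submodule.mem_sup_left (T := m ^ 2) (Ideal.subset_span (mem_range_self i)))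
      (Submodule.mem_sup_right (S := G) h1)
    rwa [sub_sub_cancel] at h2
  have hA : ∀ k, ∀ R ∈ m ^ k, ∃ q : Pl N, q.IsHomogeneous k ∧ R - aeval lam q ∈ G ⊔ m ^ (k + 1) := by
    intro k
    induction k with
    | zero =>
      refine fun R _ => ⟨C (eval w R), isHomogeneous_C _ _, Submodule.mem_sup_right ?_⟩
      simp [hm, mem_mx]
    | succ k ih =>
      intro R hR
      rw [pow_succ] at hR
      refine Submodule.mul_induction_on hR (fun a ha b hb => ?_) ?_
      · obtain ⟨q, h1, h2⟩ := ih a ha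
        refine ⟨q * lin b w, h1.mul (lin_hom b w), ?_⟩
        have h3 : b - aeval lam (lin b w) ∈ G ⊔ m ^ 2 := by
          have h4 := add_mem (Submodule.mem_sup_right (S := G) (tay1 hb)) (Ideal.sum_mem _
            fun k (_ : k ∈ Finset.univ) => Ideal.mul_mem_left _ (C (eval w (pderiv k b))) (hX k))
          refine (congrArg (· ∈ G ⊔ m ^ 2) ?_).mp h4
          simp only [lin, map_sum, map_mul, aeval_X, aeval_C, algebraMap_eq, mul_sub,
            Finset.sum_sub_distrib]
          ring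
        have h5 : aeval lam q ∈ G ⊔ m ^ k := by
          have := sub_mem (Submodule.mem_sup_right (S := G) ha)
            (sup_le_sup_left (Ideal.pow_le_pow_right (Nat.le_succ k)) G h2)
          rwa [sub_sub_cancel] at this
        have h6 := sup_mul' h2 (Submodule.mem_sup_right (S := G) hb)
        have h7 := sup_mul' h5 h3
        rw [← pow_succ] at h6
        rw [← pow_add] at h7
        refine (congrArg (· ∈ G ⊔ m ^ (k + 1 + 1)) ?_).mp (add_mem h6 h7)
        rw [map_mul]
        ring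
      · rintro a b ⟨q, h1, h2⟩ ⟨q', h1', h2'⟩
        refine ⟨q + q', h1.add h1', (congrArg (· ∈ G ⊔ m ^ (k + 1 + 1)) ?_).mp (add_mem h2 h2')⟩
        rw [map_add]
        ring
  have hB : ∀ k, Q ∈ G ⊔ m ^ k := by
    intro k
    induction k with
    | zero => simp
    | succ k ih =>
      obtain ⟨g, hg, R, hR, e⟩ := Submodule.mem_sup.1 ih
      obtain ⟨q, h1, h2⟩ := hA k R hR
      obtain ⟨g', hg', R', hR', e'⟩ := Submodule.mem_sup.1 h2
      have h3 : aeval lam q = 0 := by
        refine MvPolynomial.funext fun x => ?_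
        rw [hlam, map_zero]
        obtain ⟨γ, d1, d2, d3⟩ := hv (x - w)
        have h4 : (fun ε => eval (pj F β w (ε⁻¹ • (γ ε - w))) q) =O[𝓝[≠] 0] fun ε : ℂ => ε := by
          have h5 := ((bigO d1 d2 _ R' hR').neg_left.mono (nhdsWithin_le_nhds (s := {0}ᶜ))).mul
            (isBigO_refl (fun ε : ℂ => ε⁻¹ ^ k) _)
          refine h5.congr' ?_ ?_
          · filter_upwards [nhdsWithin_le_nhds d3] with ε h6
            have h7 : aeval lam q = Q - g - g' - R' := by
              rw [← e]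
              linear_combination e'
            rw [pj_smul, eval_sc h1, ← hlam, h7]
            simp only [map_sub, hQ _ h6, hGZ hg _ h6, hGZ hg' _ h6]
            ring
          · filter_upwards [self_mem_nhdsWithin] with ε h6
            have h7 : ε ≠ 0 := h6
            rw [pow_succ', mul_assoc, ← mul_pow, mul_inv_cancel₀ h7, one_pow, mul_one]
        have h5 : Tendsto (fun ε : ℂ => ε⁻¹ • (γ ε - w)) (𝓝[≠] 0) (𝓝 (pj F β w (x - w))) := by
          simpa [d2] using hasDerivAt_iff_tendsto_slope_zero.1 d1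
        have h6 := ((ev_diff q _).continuousAt.tendsto.comp ((pj_cont F β w).tendsto _)).comp h5
        rw [hp] at h6
        exact tendsto_nhds_unique h6
          (h4.trans_tendsto (tendsto_id.mono_left nhdsWithin_le_nhds))
      rw [h3, sub_zero] at h2
      rw [← e]
      exact add_mem (Submodule.mem_sup_left hg) h2
  have hK := (Ideal.mem_iInf_smul_pow_eq_bot_iff m (Ideal.Quotient.mk G Q)).1
    ((Submodule.mem_iInf _).2 fun k => by
      obtain ⟨g, hg, R, hR, e⟩ := Submodule.mem_sup.1 (hB k)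
      have : Ideal.Quotient.mk G Q = R • (1 : Pl N ⧸ G) := by
        rw [← e, map_add, Ideal.Quotient.eq_zero_iff_mem.2 hg, zero_add]
        exact congrArg (Ideal.Quotient.mk G) (mul_one R).symm
      rw [this]
      exact Submodule.smul_mem_smul hR trivial)
  obtain ⟨ρ, hρ⟩ := hK
  refine ⟨1 - ρ, by rw [map_sub, map_one, mem_mx.1 ρ.2, sub_zero]; exact one_ne_zero, ?_⟩
  rw [← Ideal.Quotient.eq_zero_iff_mem, sub_mul, one_mul, map_sub, map_mul, sub_eq_zero, ← hρ]
  rw [hρ]
  exact hρ.symm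

end Vale.Agent.P280Z.Br
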