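import Vale.Agent.P280Z.Br.Cd
import Vale.Agent.P276.M.Defs
import Vale.Agent.P276.Geo.Trans

/-!
# P280, bridge: the core model of the cone
-/

open MvPolynomial Filter Topology Set
open Vale.Agent.P276.M (Model chart loc)

noncomputable section

namespace Vale.Agent.P280Z.Br

variable {n N c m : ℕ}

/-- a generic point -/
structure GP (S : CD n N c m) (K : Type) [Field K] [Algebra ℂ K] (u : Fin N → K) (i₀ : S.ι) :
    Prop where
  ker : ∀ (R : Pl N) (d : ℕ), R.IsHomogeneous d → (aeval u R = 0 ↔ R ∈ IZ S.Z)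
  one : u (S.α i₀ 0) = 1
  frac : ∀ x : K, ∃ P Q : Pl N, aeval u Q ≠ 0 ∧ x * aeval u Q = aeval u P
  base : ∃ w ∈ sl S.Z (X (S.α i₀ 0)), eval w (S.Y i₀) ≠ 0

theorem exists_gp (S : CD n N c m) : ∃ (K : Type) (_ : Field K) (_ : Algebra ℂ K) (u : Fin N → K)
    (i₀ : S.ι), GP S K u i₀ := by
  obtain ⟨v, hv, h0⟩ := S.ne
  obtain ⟨i, hi⟩ := S.cover v hv h0
  have hj := S.lead i v hv h0 hi
  have hl := isHomogeneous_X ℂ (S.α i 0)
  have h1 : (X (S.α i 0) : Pl N) ∉ IZ S.Z := fun h => hj (by simpa using h v hv)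
  have := S.sl_prime hl h1
  set I := IZ (sl S.Z (X (S.α i 0))) with hI
  let φ : Pl N →ₐ[ℂ] FractionRing (Pl N ⧸ I) :=
    (IsScalarTower.toAlgHom ℂ (Pl N ⧸ I) _).comp (Ideal.Quotient.mkₐ ℂ I)
  have e : ∀ Q, aeval (fun k => φ (X k)) Q = φ Q := fun Q =>
    (AlgHom.congr_fun (aeval_unique φ) Q).symm
  have k : ∀ Q, φ Q = 0 ↔ Q ∈ I := fun Q =>
    (map_eq_zero_iff _ (IsFractionRing.injective (Pl N ⧸ I) _)).trans
      Ideal.Quotient.eq_zero_iff_mem
  refine ⟨_, inferInstance, inferInstance, fun k => φ (X k), i, fun R d hR => ?_, ?_, fun x => ?_,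
    _, S.sc_mem hl hv (by simpa using hj), ?_⟩
  · rw [e, k]
    exact ⟨S.of_sl hl h1 hR, fun h v hv => h v hv.1⟩
  · rw [← sub_eq_zero, ← map_one φ, ← map_sub, k]
    exact fun v hv => by rw [map_sub, hv.2, map_one, sub_self]
  · obtain ⟨a, b, hb, rfl⟩ := IsFractionRing.div_surjective (A := Pl N ⧸ I) x
    obtain ⟨P, rfl⟩ := Ideal.Quotient.mk_surjective a
    obtain ⟨Q, rfl⟩ := Ideal.Quotient.mk_surjective b
    have h2 : φ Q ≠ 0 :=
      IsFractionRing.to_map_ne_zero_of_mem_nonZeroDivisors (R := Pl N ⧸ I) hb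
    exact ⟨P, Q, by rwa [e], by rw [e, e]; exact div_mul_cancel₀ _ h2⟩
  · rw [eval_sc (S.hom i)]
    exact mul_ne_zero (pow_ne_zero _ (inv_ne_zero (by simpa using hj))) hi

section

variable {K : Type} [Field K] [Algebra ℂ K]

theorem exists_lin {u : Fin N → K} {f : K} (hf : f ∈ Submodule.span ℂ (range u)) :
    ∃ l : Pl N, l.IsHomogeneous 1 ∧ aeval u l = f := by
  obtain ⟨a, rfl⟩ := (Submodule.mem_span_range_iff_exists_fun ℂ).1 hf
  refine ⟨∑ k, C (a k) * X k, IsHomogeneous.sum _ _ _ fun k _ => ?_, by simp [Algebra.smul_def]⟩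
  simpa using (isHomogeneous_C (Fin N) _).mul (isHomogeneous_X ℂ k)

theorem mem_chart (u : Fin N → K) (f : Fin 1 → K) (x : K) :
    x ∈ chart (fun _ => Submodule.span ℂ (range u)) f ↔
      ∃ Q : Pl N, aeval (fun k => (f 0)⁻¹ * u k) Q = x := by
  have : chart (fun _ => Submodule.span ℂ (range u)) f =
      (aeval (fun k => (f 0)⁻¹ * u k) : Pl N →ₐ[ℂ] K).range := by
    refine le_antisymm (Algebra.adjoin_le ?_) ?_
    · rintro _ ⟨j, v, hv, rfl⟩
      obtain ⟨l, h1, rfl⟩ := exists_lin hv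
      exact ⟨l, (aeval_sc h1 _ _).trans (by rw [Subsingleton.elim j 0, pow_one, div_eq_inv_mul])⟩
    · rw [← Algebra.adjoin_range_eq_range_aeval]
      refine Algebra.adjoin_mono ?_
      rintro _ ⟨k, rfl⟩
      exact ⟨0, u k, Submodule.subset_span (mem_range_self k), (div_eq_inv_mul _ _).symm⟩
  rw [this]
  rfl

theorem der_sum {κ : Type} (s : Finset κ) (D : κ → Derivation ℂ K K) (x : K) :
    (∑ j ∈ s, D j) x = ∑ j ∈ s, D j x := by
  classical
  induction s using Finset.induction_on with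
  | empty => simp
  | insert a s h ih => rw [Finset.sum_insert h, Finset.sum_insert h, Derivation.add_apply, ih]

/-- the local ring at the centre of `A` -/
def locS {ρ : ℕ} (V : Fin ρ → Submodule ℂ K) (f : Fin ρ → K) (A : ValuationSubring K) :
    Subalgebra ℂ K where
  carrier := loc V f A
  mul_mem' := by
    rintro _ _ ⟨a, ha, b, hb, h1, h2, rfl⟩ ⟨a', ha', b', hb', h1', h2', rfl⟩
    exact ⟨a * a', mul_mem ha ha', b * b', mul_mem hb hb', mul_ne_zero h1 h1',
      by rw [mul_inv]; exact mul_mem h2 h2', div_mul_div_comm _ _ _ _⟩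
  add_mem' := by
    rintro _ _ ⟨a, ha, b, hb, h1, h2, rfl⟩ ⟨a', ha', b', hb', h1', h2', rfl⟩
    exact ⟨a * b' + b * a', add_mem (mul_mem ha hb') (mul_mem hb ha'), b * b', mul_mem hb hb',
      mul_ne_zero h1 h1', by rw [mul_inv]; exact mul_mem h2 h2', div_add_div _ _ h1 h1'⟩
  algebraMap_mem' a := ⟨_, Subalgebra.algebraMap_mem _ a, 1, one_mem _, one_ne_zero,
    by rw [inv_one]; exact one_mem _, (div_one _).symm⟩

end

namespace GP

variable {S : CD n N c m} {K : Type} [Field K] [Algebra ℂ K] {u : Fin N → K} {i₀ : S.ι}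
  (G : GP S K u i₀)
include G

theorem ker_sl {l : Pl N} (hl : l.IsHomogeneous 1) (h0 : aeval u l ≠ 0) (Q : Pl N) :
    aeval (fun k => (aeval u l)⁻¹ * u k) Q = 0 ↔ Q ∈ IZ (sl S.Z l) := by
  obtain ⟨d, Q', h1, h2⟩ := homog hl Q
  rw [h2 K u _ (inv_mul_cancel₀ h0), mul_eq_zero, or_iff_right (pow_ne_zero _ (inv_ne_zero h0)),
    G.ker Q' d h1]
  exact ⟨fun h v hv => by rw [S.hg_eval h2 hv, h v hv.1], fun h => S.of_sl hl
    (fun k => h0 ((G.ker l 1 hl).2 k)) h1 fun v hv => by rw [← S.hg_eval h2 hv, h v hv]⟩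

theorem ker0 (Q : Pl N) : aeval u Q = 0 ↔ Q ∈ IZ (sl S.Z (X (S.α i₀ 0))) := by
  simpa [G.one] using G.ker_sl (isHomogeneous_X ℂ (S.α i₀ 0)) (by simp [G.one]) Q

theorem smooth (f : Fin 1 → K) (h : f 0 ∈ Submodule.span ℂ (range u)) (h0 : f 0 ≠ 0) :
    Algebra.FormallySmooth ℂ (chart (fun _ => Submodule.span ℂ (range u)) f) := by
  obtain ⟨l, hl, e⟩ := exists_lin h
  refine smooth_of (S.sl_zar (l := l)) (S.sl_tc hl) ((aeval fun k => (f 0)⁻¹ * u k).codRestrict _
    fun Q => (mem_chart u f _).2 ⟨Q, rfl⟩) (fun x => ?_) (Ideal.ext fun Q => ?_)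
  · obtain ⟨Q, hQ⟩ := (mem_chart u f _).1 x.2
    exact ⟨Q, Subtype.ext hQ⟩
  · rw [← G.ker_sl hl (e ▸ h0), e]
    exact Subtype.ext_iff

theorem indep : AlgebraicIndependent ℂ fun a : Fin n => u (S.α i₀ a.succ) := by
  refine algebraicIndependent_iff.2 fun p hp => ?_
  obtain ⟨w, hw, hY⟩ := G.base
  have hl := isHomogeneous_X ℂ (S.α i₀ 0)
  let π : (Fin N → ℂ) → Fin n → ℂ := fun v a => v (S.α i₀ a.succ)
  refine dense_of (Z := π '' sl S.Z (X (S.α i₀ 0))) (mem_image_of_mem π hw) (fun θ => ?_) ?_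
  · obtain ⟨ξ, h1, h2⟩ := S.surj i₀ w hw.1 (ne_of_sl hl hw) hY (Fin.cons 0 θ)
    obtain ⟨γ, k1, k2, k3⟩ := S.sl_vel hl hw h1 (by simpa [dP, Pi.single_apply] using h2 0)
    refine ⟨fun ε => π (γ ε), hasDerivAt_pi.2 fun a => ?_, congrArg π k2,
      k3.mono fun ε => mem_image_of_mem π⟩
    have := hasDerivAt_pi.1 k1 (S.α i₀ a.succ)
    rwa [h2] at this
  · rintro _ ⟨v, hv, rfl⟩
    have := (G.ker0 (rename (fun a : Fin n => S.α i₀ a.succ) p)).1 (by rwa [aeval_rename]) v hv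
    rwa [eval_rename] at this

theorem der_zero (D : Derivation ℂ K K) (h : ∀ a : Fin n, D (u (S.α i₀ a.succ)) = 0) : D = 0 := by
  obtain ⟨w, hw, hY⟩ := G.base
  have h1 : ∀ k, D (u k) = 0 := S.der_mem (isHomogeneous_X ℂ _) ⊥ hw hY (fun Q => (G.ker0 Q).2)
    (by simp [G.one]) (fun Q s hs => by simp [Submodule.mem_bot ℂ |>.1 hs])
    (fun Q hQ s hs => (mul_eq_zero.1 hs).resolve_left fun k => hQ ((G.ker0 Q).1 k w hw)) D
    fun a => by simp [G.one, h]
  have h2 : ∀ Q : Pl N, D (aeval u Q) = 0 := fun Q => by simp [der_aeval, h1]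
  ext x
  obtain ⟨P, Q, k1, k2⟩ := G.frac x
  have := congrArg D k2
  rw [D.leibniz, h2, h2] at this
  simpa [k1] using this

theorem den {κ : Type} [Fintype κ] (x : κ → K) :
    ∃ Q : Pl N, aeval u Q ≠ 0 ∧ ∀ i, ∃ P : Pl N, aeval u P = aeval u Q * x i := by
  classical
  choose P Q h1 h2 using fun i => G.frac (x i)
  refine ⟨∏ i, Q i, by rw [map_prod]; exact Finset.prod_ne_zero_iff.2 fun i _ => h1 i, fun i =>
    ⟨(∏ j ∈ Finset.univ.erase i, Q j) * P i, ?_⟩⟩
  rw [← Finset.prod_erase_mul _ Q (Finset.mem_univ i), map_mul, map_mul, ← h2]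
  ring

theorem relK {dz : Fin n → Derivation ℂ K K}
    (hz : ∀ a b, dz b (u (S.α i₀ a.succ)) = if a = b then 1 else 0) (i : S.ι)
    (h : u (S.α i 0) ≠ 0) : (u (S.α i 0) ^ (n + 1) *
      (Matrix.of fun b a => dz a (u (S.α i b.succ) / u (S.α i 0))).det) ^ c * aeval u (S.Y i₀) =
      aeval u (S.Y i) := by
  obtain ⟨b, hb, hη⟩ := G.den fun p : Fin n × Fin N => dz p.1 (u p.2)
  choose η hη using hη
  have h1 : aeval u (pl (S.α i) X (fun a k => η (a, k)) ^ c * S.Y i₀ -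
      pl (S.α i₀) X (fun a k => η (a, k)) ^ c * S.Y i) = 0 := by
    refine (G.ker0 _).2 fun w hw => ?_
    simp only [map_sub, map_mul, map_pow, pl_map, eval_X, sub_eq_zero]
    refine S.rel i i₀ w hw.1 (ne_of_sl (isHomogeneous_X ℂ _) hw) _ fun a P hP ⟨d, hd⟩ => ?_
    have h2 := (G.ker0 (∑ k, pderiv k P * η (a, k))).1 (by
      have h3 := der_aeval (dz a) u P
      rw [(G.ker P d hd).2 hP, map_zero] at h3
      simp only [map_sum, map_mul, hη, mul_left_comm _ (aeval u b), ← Finset.mul_sum, ← h3,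
        mul_zero]) w hw
    simpa [dP] using h2
  have h4 : ∀ α : Fin (n + 1) → Fin N, u (α 0) ≠ 0 →
      aeval u (pl α X fun a k => η (a, k)) = aeval u b ^ n * (u (α 0) ^ (n + 1) *
        (Matrix.of fun b a => dz a (u (α b.succ) / u (α 0))).det) := fun α h => by
    have h5 := pl_map (aeval u : Pl N →ₐ[ℂ] K).toRingHom α X fun a k => η (a, k)
    have h6 := pl_eq α u (fun a => aeval u b • dz a) h
    rw [show (Matrix.of fun (b' a : Fin n) => (aeval u b • dz a) (u (α b'.succ) / u (α 0))) =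
      aeval u b • Matrix.of fun (b' a : Fin n) => dz a (u (α b'.succ) / u (α 0)) from rfl,
      Matrix.det_smul, Fintype.card_fin] at h6
    refine h5.trans (Eq.trans ?_ (h6.trans (by ring)))
    simp [hη]
  rw [map_sub, map_mul, map_mul, map_pow, map_pow, h4 _ h, h4 _ (by simp [G.one]),
    show (Matrix.of fun b a : Fin n => dz a (u (S.α i₀ b.succ) / u (S.α i₀ 0))) = 1 from
      Matrix.ext fun a b => by simp [G.one, hz, Matrix.one_apply], G.one] at h1
  refine mul_left_cancel₀ (pow_ne_zero c (pow_ne_zero n hb)) ?_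
  simp only [Matrix.det_one, one_pow, mul_one, mul_pow (aeval u b ^ n)] at h1
  linear_combination h1

theorem Y_ne {i : S.ι} {w : Fin N → ℂ} (hw : w ∈ S.Z) (h : eval w (S.Y i) ≠ 0) :
    aeval u (S.Y i) ≠ 0 := fun k => h ((G.ker _ _ (S.hom i)).1 k w hw)

theorem can (hc0 : c ≠ 0) {dz : Fin n → Derivation ℂ K K}
    (hz : ∀ a b, dz b (u (S.α i₀ a.succ)) = if a = b then 1 else 0) (A : ValuationSubring K)
    (hA : ∀ a : ℂ, algebraMap ℂ K a ∈ A) (f : Fin 1 → K) (V : Fin 1 → Submodule ℂ K)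
    (hV : V = fun _ => Submodule.span ℂ (range u))
    (hf : ∀ i, f i ∈ V i ∧ f i ≠ 0 ∧ ∀ v ∈ V i, v / f i ∈ A) :
    ∃ (t : Fin n → K) (D : Fin n → Derivation ℂ K K), (∀ i, t i ∈ loc V f A) ∧
      (∀ i j, D i (t j) = if i = j then 1 else 0) ∧ (∀ i, ∀ x ∈ loc V f A, D i x ∈ loc V f A) ∧
      ∃ v : K, v ≠ 0 ∧ v ∈ loc V f A ∧ v⁻¹ ∈ loc V f A ∧
        (Matrix.of fun i j => dz j (t i)).det ^ c * ∏ i : Fin 1, f i ^ m =
          v * (aeval u (S.Y i₀))⁻¹ := by
  classical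
  subst hV
  obtain ⟨f1, f0, fA⟩ := hf 0
  obtain ⟨l, hl, e⟩ := exists_lin f1
  set y : Fin N → K := fun k => (f 0)⁻¹ * u k with hy
  have hk : ∀ Q, aeval y Q = 0 ↔ Q ∈ IZ (sl S.Z l) := fun Q => by
    rw [← G.ker_sl hl (e ▸ f0), e]
  have hyA : ∀ Q : Pl N, aeval y Q ∈ A := fun Q => by
    induction Q using MvPolynomial.induction_on with
    | C a => simpa using hA a
    | add P Q h1 h2 => rw [map_add]; exact add_mem h1 h2
    | mul_X Q k h1 =>
      rw [map_mul, aeval_X]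
      have h2 := fA _ (Submodule.subset_span (mem_range_self k))
      rw [div_eq_inv_mul] at h2
      exact mul_mem h1 h2
  let ψ : Pl N →+* A := (aeval y : Pl N →ₐ[ℂ] K).toRingHom.codRestrict A.toSubring hyA
  obtain ⟨w, hw⟩ := exists_pt (Ideal.comap_ne_top ψ (IsLocalRing.maximalIdeal.isMaximal A).ne_top)
  have hwl : w ∈ sl S.Z l := S.sl_zar w fun Q hQ => hw Q (by
    rw [Ideal.mem_comap, show ψ Q = 0 from Subtype.ext ((hk Q).2 hQ)]
    exact zero_mem _)
  set L := locS (fun _ : Fin 1 => Submodule.span ℂ (range u)) f A with hL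
  have hc := fun Q : Pl N => (mem_chart u f _).2 ⟨Q, rfl⟩
  have hP : ∀ Q : Pl N, aeval y Q ∈ L := fun Q =>
    ⟨_, hc Q, 1, one_mem _, one_ne_zero, by rw [inv_one]; exact one_mem _, (div_one _).symm⟩
  have hU : ∀ Q : Pl N, eval w Q ≠ 0 → aeval y Q ≠ 0 ∧ (aeval y Q)⁻¹ ∈ L := fun Q hQ => by
    have h1 : IsUnit (ψ Q) := by
      by_contra h
      exact hQ (hw Q h)
    obtain ⟨b, hb⟩ := h1.exists_right_inv
    have h2 : aeval y Q * (b : K) = 1 := congrArg Subtype.val hb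
    exact ⟨left_ne_zero_of_mul_eq_one h2, 1, one_mem _, _, hc Q, left_ne_zero_of_mul_eq_one h2,
      by rw [inv_eq_of_mul_eq_one_right h2]; exact b.2, (one_div _).symm⟩
  obtain ⟨i, hi⟩ := S.cover w hwl.1 (ne_of_sl hl hwl)
  obtain ⟨y0, y1⟩ := hU (X (S.α i 0)) (by simpa using S.lead i w hwl.1 (ne_of_sl hl hwl) hi)
  rw [aeval_X] at y0 y1
  have u0 : u (S.α i 0) ≠ 0 := right_ne_zero_of_mul y0
  set t : Fin n → K := fun b => u (S.α i b.succ) / u (S.α i 0) with ht
  have hty : ∀ b, y (S.α i b.succ) / y (S.α i 0) = t b := fun b =>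
    mul_div_mul_left _ _ (inv_ne_zero f0)
  have hr := G.relK hz i u0
  set J : Matrix (Fin n) (Fin n) K := Matrix.of fun b a => dz a (t b) with hJ
  obtain ⟨w₀, hw₀, hY₀⟩ := G.base
  have hY0 := G.Y_ne hw₀.1 hY₀
  have hYi := G.Y_ne hwl.1 hi
  have hd : J.det ^ c ≠ 0 := fun h => hYi (by rw [← hr, mul_pow, h, mul_zero, zero_mul])
  have hd' : IsUnit J.det := (pow_ne_zero_iff hc0).1 hd |>.isUnit
  let D : Fin n → Derivation ℂ K K := fun a => ∑ j, J⁻¹ j a • dz j
  have hD : ∀ a b, D a (t b) = if a = b then 1 else 0 := fun a b => by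
    have h1 := congrFun (congrFun (Matrix.mul_nonsing_inv J hd') b) a
    rw [Matrix.mul_apply, Matrix.one_apply] at h1
    simp only [D, der_sum, Derivation.smul_apply, smul_eq_mul]
    rw [if_congr eq_comm rfl rfl, ← h1]
    exact Finset.sum_congr rfl fun j _ => mul_comm _ _
  have hDy : ∀ a k, D a (y k) ∈ L := fun a => S.der_mem hl L.toSubmodule hwl hi
    (fun Q => (hk Q).2) y0 (fun Q s hs => L.mul_mem (hP Q) hs) (fun Q hQ s hs => by
      have := L.mul_mem (hU Q hQ).2 hs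
      rwa [inv_mul_cancel_left₀ (hU Q hQ).1] at this) (D a) fun b => by
        rw [hty, hD]
        split_ifs
        exacts [L.one_mem, L.zero_mem]
  have hDP : ∀ a (Q : Pl N), D a (aeval y Q) ∈ L := fun a Q => by
    rw [der_aeval]
    exact sum_mem fun k _ => mul_mem (hP _) (hDy a k)
  obtain ⟨z0, z1⟩ := hU _ hi
  refine ⟨t, D, fun b => ?_, hD, ?_, aeval y (S.Y i) * (y (S.α i 0))⁻¹ ^ (c * (n + 1)),
    mul_ne_zero z0 (pow_ne_zero _ (inv_ne_zero y0)), mul_mem (hP _) (pow_mem y1 _), ?_, ?_⟩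
  · rw [← hty, div_eq_mul_inv]
    exact L.mul_mem (by simpa using hP (X _)) y1
  · rintro a _ ⟨p, hp, q, hq, h1, h2, rfl⟩
    have h3 : q⁻¹ ∈ L := ⟨1, one_mem _, q, hq, h1, h2, (one_div _).symm⟩
    obtain ⟨P, rfl⟩ := (mem_chart u f _).1 hp
    obtain ⟨Q, rfl⟩ := (mem_chart u f _).1 hq
    rw [Derivation.leibniz_div]
    exact L.mul_mem (pow_mem h3 2)
      (sub_mem (mul_mem (hP Q) (hDP a P)) (mul_mem (hP P) (hDP a Q)))
  · rw [mul_inv, ← inv_pow, inv_inv]
    exact L.mul_mem z1 (pow_mem (by simpa using hP (X _)) _)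
  · rw [Fin.prod_univ_one, hy, aeval_sc (S.hom i), ← hr]
    have h4 : f 0 ^ (c * (n + 1)) = f 0 ^ S.d * f 0 ^ m := by rw [← pow_add, S.hd]
    simp only [mul_inv, inv_inv, mul_pow, h4, ← pow_mul, mul_comm (n + 1) c, inv_pow]
    field_simp
    rfl

end GP

/-- **The model** -/
theorem exists_model (S : CD n N c m) (hc : 0 < c) (hm : 0 < m) : ∃ (M : Model n 1)
    (u : Fin N → M.K), M.c = c ∧ M.m 0 = m ∧ M.V 0 = Submodule.span ℂ (range u) ∧
      ∀ (R : Pl N) (d : ℕ), R.IsHomogeneous d → (aeval u R = 0 ↔ R ∈ IZ S.Z) := by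
  obtain ⟨K, _, _, u, i₀, G⟩ := exists_gp S
  choose dz hz using fun b : Fin n => P276.H981.exists_der_of_algebraicIndependent G.indep
    fun a => if a = b then 1 else 0
  obtain ⟨w₀, hw₀, hY₀⟩ := G.base
  refine ⟨{ K := K
            V := fun _ => Submodule.span ℂ (range u)
            finV := fun _ => FiniteDimensional.span_of_finite ℂ (finite_range u)
            oneV := fun _ => G.one ▸ Submodule.subset_span (mem_range_self _)
            genV := ?_
            z := fun a => u (S.α i₀ a.succ)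
            trans := P276.Geo.isTranscendenceBasis_of_dual (d := dz)
              (fun i j => (hz i j).trans (if_congr eq_comm rfl rfl)) fun v =>
                sub_eq_zero.1 (G.der_zero _ fun a => by simp [der_sum, hz])
            dz := dz
            dz_z := fun i j => hz j i
            c := c
            c_pos := hc
            m := fun _ => m
            m_pos := fun _ => hm
            h := (aeval u (S.Y i₀))⁻¹
            h_ne := inv_ne_zero (G.Y_ne hw₀.1 hY₀)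
            can := fun A hA f hf => G.can hc.ne' (fun a b => hz b a) A hA f _ rfl hf
            smooth := fun f hf => G.smooth f (hf 0).1 (hf 0).2 }, u, rfl, rfl, rfl, G.ker⟩
  refine top_unique fun x _ => ?_
  obtain ⟨P, Q, h1, h2⟩ := G.frac x
  have h3 : ∀ Q : Pl N, aeval u Q ∈ IntermediateField.adjoin ℂ
      (⋃ _ : Fin 1, (Submodule.span ℂ (range u) : Set K)) := fun Q =>
    IntermediateField.algebra_adjoin_le_adjoin _ _ (Algebra.adjoin_mono (s := range u)
      (fun a ha => mem_iUnion.2 ⟨0, Submodule.subset_span ha⟩)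
        (by rw [Algebra.adjoin_range_eq_range_aeval]; exact ⟨Q, rfl⟩))
  rw [eq_div_of_mul_eq h1 h2]
  exact div_mem (h3 P) (h3 Q)

end Vale.Agent.P280Z.Br
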