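import Vale.Agent.P280Z.Br.An
import Vale.Agent.P280Z.Cv.EqsB
import Vale.Agent.P281Z.Sc.Sy

/-!
# P280, bridge: an embedding in which the canonical bundle is visible
-/

open scoped Manifold ContDiff Topology Matrix
open MvPolynomial Set Filter Function
open Vale.Agent.P272.K Vale.Agent.P285.H281.FD Vale.Agent.P281Z
open Vale.Agent.P277Z (Hol at_chart)
open Vale.Agent.P277Z.Slc (dd)
open Vale.Agent.P277 (Bd.inv)

set_option linter.unusedSectionVars false

noncomputable section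

namespace Vale.Agent.P280Z.Br

variable {n N : ℕ} {X : Type} [TopologicalSpace X] [ChartedSpace (Cm n) X]
  [IsManifold 𝓘(ℂ, Cm n) ω X] {s s₁ : X → Cm N} {γ : X → ℂ} {e e' : Chart n X} {x : X}

theorem ds_mul (h : ∀ᶠ y in 𝓝 x, s y = γ y • s₁ y) (h1 : AnV n s₁ x) (h2 : Hol n γ x) (he : At e x)
    (v : Cm n) : ds s e x v = γ x • ds s₁ e x v + dd γ e x v • s₁ x := funext fun i => by
  rw [ds, P277Z.Slc.dd_congr (b := fun y => γ y * s₁ y i) (h.mono fun y k => congrFun k i) he, dd,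
    fderiv_fun_mul (h2 e he).differentiableAt (h1.hol i e he).differentiableAt, he.left_inv]
  simp [ds, dd, mul_comm]

theorem om_mul (h : ∀ᶠ y in 𝓝 x, s y = γ y • s₁ y) (h1 : AnV n s₁ x) (h2 : Hol n γ x) (he : At e x)
    (α : Fin (n + 1) → Fin N) : om α s e x = γ x ^ (n + 1) * om α s₁ e x := by
  have := pl_chg α (s₁ x) (fun b => ds s₁ e x (Pi.single b 1)) (γ x) (γ x • 1)
    fun b => dd γ e x (Pi.single b 1)
  rw [Matrix.det_smul, Matrix.det_one, mul_one, Fintype.card_fin, ← pow_succ'] at this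
  rw [om, om, ← this, h.self_of_nhds]
  refine congrArg _ (funext fun b => ?_)
  rw [ds_mul h h1 h2 he]
  simp [Matrix.one_apply]

theorem om_chart (h : AnV n s x) (he : At e x) (he' : At e' x) (α : Fin (n + 1) → Fin N) :
    om α s e x = (jacM e e' x).det * om α s e' x := by
  have := pl_chg α (s x) (fun b => ds s e' x (Pi.single b 1)) 1 (jacM e e' x) 0
  rw [one_smul, one_mul] at this
  rw [om, om, ← this]
  refine congrArg _ (funext fun b => ?_)
  rw [Pi.zero_apply, zero_smul, add_zero, P277Z.Slc.Adj.jacM_of he he']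
  exact (funext fun i => DFunLike.congr_fun (P277Z.Slc.Adj.dd_chart he he' (h.hol i)) _).trans
    (ds_sum s e' x _)

theorem om_hol (h : AnV n s x) (he : At e x) (α : Fin (n + 1) → Fin N) : Hol n (om α s e) x :=
  hol_det' fun _ a => Fin.cases (h.hol _) (fun _ => hol_dd (h.hol _) he _) a

theorem om_id (α : Fin (n + 1) → Fin N) : om α s e x = om id (fun y b => s y (α b)) e x :=
  congrArg Matrix.det (Matrix.ext fun _ a => Fin.cases rfl (fun _ => rfl) a)

theorem lb_acan : IsLB n (Bd.inv (Bd.can n X)) :=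
  have h := P277Z.Slc.Adj.isLB_can (n := n) (W := X)
  ⟨h.isOpen, h.cover, fun i j e x he hi hj => (h.holo i j e x he hi hj).inv
    (by rw [he.left_inv]; exact h.ne_zero i j x hi hj),
    fun i j x hi hj => inv_ne_zero (h.ne_zero i j x hi hj),
    fun i j k x hi hj hk => (mul_inv _ _).symm.trans (congrArg _ (h.cocycle i j k x hi hj hk))⟩

/-- the indices of the new coordinates -/
abbrev Ix (n N : ℕ) : Type := (Fin N × Fin N) ⊕ (Fin (n + 1) → Fin N)

/-- the new coordinates -/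
def nw (s : Chart n X → X → Cm N) (q k : ℕ) (a : Chart n X) (x : X) : Cm (Fintype.card (Ix n N)) :=
  fun i => Sum.elim (fun p => s a x p.1 * s a x p.2 ^ q) (fun α => om α (s a) a x ^ k)
    ((Fintype.equivFin (Ix n N)).symm i)

section
variable {s : Chart n X → X → Cm N} {q k m d : ℕ}

theorem nw_l (a : Chart n X) (x : X) (i j : Fin N) :
    nw s q k a x (Fintype.equivFin (Ix n N) (.inl (i, j))) = s a x i * s a x j ^ q := by
  rw [nw, Equiv.symm_apply_apply]
  rfl

theorem nw_r (a : Chart n X) (x : X) (α : Fin (n + 1) → Fin N) :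
    nw s q k a x (Fintype.equivFin (Ix n N) (.inr α)) = om α (s a) a x ^ k := by
  rw [nw, Equiv.symm_apply_apply]
  rfl

theorem nw_an {a : Chart n X} (h : AnV n (s a) x) (ha : At a x) : AnV n (nw s q k a) x :=
  AnV.pi fun i => by
    obtain ⟨⟨i, j⟩ | α, rfl⟩ := (Fintype.equivFin (Ix n N)).surjective i
    · simp only [nw_l]
      exact (h.hol i).mul ((h.hol j).pow q)
    · simp only [nw_r]
      exact (om_hol h ha α).pow _

theorem nw_sec (hs : ∀ i, IsSec n ((Bd.inv (Bd.can n X)).pow m) fun b x => s b x i)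
    (hd : d + 1 = m * (n + 1)) (hq : q + 1 = 2 * d) (i : Fin (Fintype.card (Ix n N))) :
    IsSec n ((Bd.inv (Bd.can n X)).pow (2 * m * d)) fun b x => nw s q (2 * m) b x i := by
  have h1 : ∀ a x, At a x → AnV n (s a) x := fun a x k => AnV.pi fun i => sec_hol (hs i) k
  refine isSec_of (fun a x k => (nw_an (h1 a x k) k).hol i) ?_
  change ∀ (a b : Chart n X) x, At a x → At b x →
    nw s q (2 * m) a x i = (jacM a b x).det⁻¹ ^ (2 * m * d) * nw s q (2 * m) b x i
  intro a b x ha hb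
  obtain ⟨⟨i, j⟩ | α, rfl⟩ := (Fintype.equivFin (Ix n N)).surjective i
  · have h2 : ∀ i, s a x i = (jacM a b x).det⁻¹ ^ m * s b x i := fun i => (hs i).change a b x ha hb
    rw [nw_l, nw_l, h2, h2, show 2 * m * d = m * (q + 1) by rw [hq]; ring]
    ring
  · have h2 := om_mul (γ := fun y => (jacM a b y).det⁻¹ ^ m) (((at_near ha).and (at_near hb)).mono
      fun y k => funext fun i => (hs i).change a b y k.1 k.2) (h1 b x hb)
      (lb_hol (lb_pow lb_acan m) ha hb) ha α
    rw [nw_r, nw_r, h2, om_chart (h1 b x hb) ha hb, ← pow_mul, ← hd, pow_succ, mul_assoc,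
      inv_mul_cancel_left₀ (jacM_det_ne_zero ha hb)]
    ring

theorem nw_lifts (hl : Gp.Lifts n (fun a : Chart n X => {x | At a x}) s)
    (hs : ∀ a b x, At a x → At b x → ∃ c : ℂ, nw s q k a x = c • nw s q k b x) :
    Gp.Lifts n (fun a : Chart n X => {x | At a x}) (nw s q k) := by
  have h1 : ∀ a x, At a x → AnV n (nw s q k a) x := fun a x h => nw_an (hl.hol a x h) h
  refine ⟨hl.opn, hl.cov, h1, fun a x h => ?_, hs, fun a b x y ha hb ⟨c, hc⟩ => ?_,
    fun a x h e he ξ c hc => ?_⟩ <;> obtain ⟨j, hj⟩ := ne_iff.1 (hl.nz a x ‹_›)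
  · exact ne_iff.2 ⟨_, (nw_l a x j j).trans_ne (mul_ne_zero hj (pow_ne_zero _ hj))⟩
  · refine hl.inj a b x y ha hb ⟨c * s b y j ^ q / s a x j ^ q, funext fun i => ?_⟩
    have := congrFun hc (Fintype.equivFin (Ix n N) (.inl (i, j)))
    rw [Pi.smul_apply, nw_l, nw_l, smul_eq_mul] at this
    rw [Pi.smul_apply, smul_eq_mul, div_mul_eq_mul_div, eq_div_iff (pow_ne_zero _ hj), this]
    ring
  · have h2 := ds_mul (s := fun y i => nw s q k a y (Fintype.equivFin (Ix n N) (.inl (i, j))))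
      (γ := fun y => s a y j ^ q) (.of_forall fun y => funext fun i => by
        rw [nw_l, mul_comm]; rfl) (hl.hol a x h) ((AnV.hol (hl.hol a x h) j).pow q) he ξ
    rw [ds_fd (h1 a x h) he] at hc
    refine hl.imm a x h e he ξ (c - dd (fun y => s a y j ^ q) e x ξ / s a x j ^ q) ?_
    rw [ds_fd (hl.hol a x h) he]
    funext i
    have h3 := (congrFun hc _).symm.trans (congrFun h2 i)
    have h4 : s a x j ^ q ≠ 0 := pow_ne_zero _ hj
    simp only [Pi.smul_apply, Pi.add_apply, nw_l, smul_eq_mul] at h3 ⊢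
    field_simp
    linear_combination -h3

theorem nw_om {a : Chart n X} (h : AnV n (s a) x) (he : At e x) (α : Fin (n + 1) → Fin N) :
    om (fun b => Fintype.equivFin (Ix n N) (.inl (α b, α 0))) (nw s q k a) e x =
      (s a x (α 0) ^ q) ^ (n + 1) * om α (s a) e x := by
  rw [om_id, om_id α]
  exact om_mul (.of_forall fun y => funext fun i => by rw [nw_l, mul_comm]; rfl)
    (AnV.pi fun b => h.hol _) ((h.hol _).pow q) he id

end

/-- **the embedding** -/
theorem exists_dat (hP : Cv.PT) (V : Mf n) (hn : 0 < n) (hc : ConnectedSpace V.X) {m : ℕ}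
    (hm : 0 < m) {s : Chart n V.X → V.X → Cm N}
    (hs : ∀ i, IsSec n ((Bd.inv (Bd.can n V.X)).pow m) fun b x => s b x i)
    (hl : Gp.Lifts n (fun a : Chart n V.X => {x | At a x}) s) : ∃ (D : Dat n) (c : ℕ), 0 < c ∧
      D.X = V ∧ D.H = (Bd.inv (Bd.can n D.X.X)).pow c ∧ ∃ S : CD n D.N c 1, S.Z = Zc D := by
  obtain ⟨d, hd⟩ : ∃ d, d + 1 + 1 = m * (n + 1) := ⟨m * (n + 1) - 2, by
    have : 1 * 2 ≤ m * (n + 1) := Nat.mul_le_mul hm (Nat.succ_le_succ hn)
    omega⟩
  have hq : 2 * d + 1 + 1 = 2 * (d + 1) := rfl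
  have h1 := nw_sec hs hd hq
  have h2 := nw_lifts hl fun a b x ha hb =>
    ⟨_, funext fun i => (h1 i).change a b x ha hb⟩
  obtain ⟨r, δ, P, pt, h3, h4⟩ := Cv.cone_of n _ V _ _ _ hc.toNonempty h2
  let D : Dat n := ⟨V, _, r, δ, P, pt, _, _, hc, h3, lb_pow lb_acan _, h1, h2, h4⟩
  have h5 : 0 < 2 * m * (d + 1) := by positivity
  refine ⟨D, _, h5, rfl, rfl, exists_cd (hP n D) id (fun _ _ k => k)
    (fun (α : Fin (n + 1) → Fin N) b => Fintype.equivFin (Ix n N) (.inl (α b, α 0)))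
    (fun α => MvPolynomial.X (Fintype.equivFin (Ix n N) (.inl (α 0, α 0))) ^
      ((2 * d + 1) * (n + 1) * m) * MvPolynomial.X (Fintype.equivFin (Ix n N) (.inr α)) ^ (d + 1))
    h5.ne' (d := (2 * d + 1) * (n + 1) * m + (d + 1)) (by rw [add_assoc, hd]; ring)
    (fun α => (isHomogeneous_X_pow _ _).mul (isHomogeneous_X_pow _ _)) (fun α a x k => ?_)
    (fun α a x k h => ?_) fun a x k => ?_⟩
  · refine Eq.trans ?_ (congrArg (· ^ _) (nw_om (hl.hol a x k) k α)).symm
    simp only [map_mul, map_pow, eval_X]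
    refine (congrArg₂ (fun u v => u ^ _ * v ^ _) (nw_l a x _ _) (nw_r a x _)).trans ?_
    ring
  · have h6 := left_ne_zero_of_mul ((nw_om (hl.hol a x k) k α).symm.trans_ne h)
    have h7 : s a x (α 0) ≠ 0 := fun e => h6 (by simp [e])
    exact (nw_l a x _ _).trans_ne (mul_ne_zero h7 (pow_ne_zero _ h7))
  · obtain ⟨α, k1, k2⟩ := om_ex (e := a) (hl.nz a x k) fun v c h =>
      hl.imm a x k a k v c ((ds_fd (hl.hol a x k) k v).trans h)
    exact ⟨α, (nw_om (hl.hol a x k) k α).trans_ne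
      (mul_ne_zero (pow_ne_zero _ (pow_ne_zero _ k2)) k1)⟩

end Vale.Agent.P280Z.Br
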