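import Vale.Agent.P280Z.Br.Kr

/-!
# P280, bridge: smoothness of the coordinate ring
-/

open MvPolynomial Filter Topology Set

noncomputable section

namespace Vale.Agent.P280Z.Br

variable {N : ℕ}

/-- the Zariski tangent space -/
def Tg (Z : Set (Fin N → ℂ)) (w ξ : Fin N → ℂ) : Prop := ∀ Q ∈ IZ Z, dP Q w ξ = 0

theorem dP_sub (Q : Pl N) (w ξ η : Fin N → ℂ) : dP Q w (ξ - η) = dP Q w ξ - dP Q w η := by
  simp only [dP, Pi.sub_apply, mul_sub, Finset.sum_sub_distrib]

theorem dP_pj {r : ℕ} (F : Fin r → Pl N) (β : Fin r → Fin N → ℂ) (Q : Pl N) (w ξ : Fin N → ℂ) :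
    dP Q w (pj F β w ξ) = dP Q w ξ - ∑ i, dP Q w (β i) * dP (F i) w ξ := by
  unfold pj
  generalize hc : (fun i => dP (F i) w ξ) = c
  have h : ∀ i, dP (F i) w ξ = c i := fun i => congrFun hc i
  simp only [h]
  simp only [dP, mul_sub, Finset.sum_sub_distrib, Finset.mul_sum, Finset.sum_mul]
  rw [Finset.sum_comm]
  congr 1
  exact Finset.sum_congr rfl fun i _ => Finset.sum_congr rfl fun l _ => by ring

/-- the choice of the equations -/
theorem eqs (I : Ideal (Pl N)) (w : Fin N → ℂ) : ∃ (r : ℕ) (F : Fin r → Pl N)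
    (β : Fin r → Fin N → ℂ), (∀ i, F i ∈ I) ∧ (∀ i j, dP (F i) w (β j) = if i = j then 1 else 0) ∧
    ∀ Q ∈ I, ∀ ξ, dP Q w (pj F β w ξ) = 0 := by
  classical
  let gr : Pl N →ₗ[ℂ] (Fin N → ℂ) := LinearMap.pi fun k =>
    (aeval w : Pl N →ₐ[ℂ] ℂ).toLinearMap.comp (pderiv k : Derivation ℂ (Pl N) (Pl N)).toLinearMap
  have hgr : ∀ Q k, gr Q k = eval w (pderiv k Q) := fun _ _ => rfl
  let S := (I.restrictScalars ℂ).map gr
  let b := Module.finBasis ℂ S
  choose F hF hF' using fun i => Submodule.mem_map.1 (b i).2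
  choose g hg using fun j => LinearMap.exists_extend (b.coord j)
  have h1 : ∀ j Q, dP Q w (fun k => g j fun l => if k = l then 1 else 0) = g j (gr Q) :=
    fun j Q => by
      rw [LinearMap.pi_apply_eq_sum_univ]
      rfl
  have h2 : ∀ j (x : S), g j x = b.repr x j := fun j x => LinearMap.congr_fun (hg j) x
  refine ⟨_, F, fun j k => g j fun l => if k = l then 1 else 0, hF, fun i j => ?_,
    fun Q hQ ξ => ?_⟩
  · rw [h1, hF', h2, b.repr_self, Finsupp.single_apply]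
  · rw [dP_pj]
    have h3 := congrArg Subtype.val (b.sum_repr ⟨gr Q, Submodule.mem_map_of_mem hQ⟩)
    have h4 : ∀ k, eval w (pderiv k Q) = ∑ i, g i (gr Q) * eval w (pderiv k (F i)) := fun k => by
      refine (congrFun h3 k).symm.trans ?_
      rw [AddSubmonoidClass.coe_finsetSum, Finset.sum_apply]
      refine Finset.sum_congr rfl fun i _ => ?_
      rw [← h2, ← hgr, hF']
      rfl
    simp only [h1]
    simp only [dP, h4 , Finset.sum_mul, Finset.mul_sum]
    rw [Finset.sum_comm, sub_eq_zero]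
    exact Finset.sum_congr rfl fun i _ => Finset.sum_congr rfl fun l _ => by ring

/-- the multipliers of a retraction -/
def Rt (I : Ideal (Pl N)) : Ideal (Pl N) where
  carrier := {g | ∃ E : Fin N → Pl N, (∀ k, E k ∈ I) ∧
    ∀ Q ∈ I, g * Q - ∑ k, pderiv k Q * E k ∈ I ^ 2}
  zero_mem' := ⟨0, fun _ => I.zero_mem, fun Q _ => by simp⟩
  add_mem' := by
    rintro g g' ⟨E, h1, h2⟩ ⟨E', h1', h2'⟩
    refine ⟨E + E', fun k => add_mem (h1 k) (h1' k), fun Q hQ =>
      (congrArg (· ∈ I ^ 2) ?_).mp (add_mem (h2 Q hQ) (h2' Q hQ))⟩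
    simp only [Pi.add_apply, mul_add, Finset.sum_add_distrib]
    ring
  smul_mem' := by
    rintro a g ⟨E, h1, h2⟩
    refine ⟨fun k => a * E k, fun k => I.mul_mem_left _ (h1 k), fun Q hQ =>
      (congrArg (· ∈ I ^ 2) ?_).mp (Ideal.mul_mem_left _ a (h2 Q hQ))⟩
    rw [mul_sub, Finset.mul_sum, smul_eq_mul, mul_assoc]
    congr 1
    exact Finset.sum_congr rfl fun k _ => by ring

theorem rt_loc {Z : Set (Fin N → ℂ)} {w : Fin N → ℂ} (hw : w ∈ Z)
    (tc : ∀ ξ, Tg Z w ξ → Vel Z w ξ) : ∃ g ∈ Rt (IZ Z), eval w g ≠ 0 := by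
  classical
  obtain ⟨r, F, β, hF, hd, hT⟩ := eqs (IZ Z) w
  have hK := fun Q hQ => krull (Q := Q) hw hF (fun ξ => tc _ fun Q hQ => hT Q hQ ξ)
    (fun ξ => funext fun k => by
      rw [pj]
      simp only [hT _ (hF _), mul_zero, Finset.sum_const_zero, sub_zero]) hQ
  obtain ⟨s, hs⟩ := (isNoetherianRing_iff_ideal_fg _).1 inferInstance (IZ Z)
  choose! g hg hg' using hK
  have hs' : ∀ Q ∈ s, Q ∈ IZ Z := fun Q h => hs ▸ Ideal.subset_span h
  have h0 : ∀ Q ∈ IZ Z, (∏ Q ∈ s, g Q) * Q ∈ Ideal.span (range F) := by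
    intro Q hQ
    rw [← hs] at hQ
    induction hQ using Submodule.span_induction with
    | mem Q h =>
      rw [← Finset.prod_erase_mul s g h, mul_assoc]
      exact Ideal.mul_mem_left _ _ (hg' Q (hs' Q h))
    | zero => simp
    | add a b _ _ h1 h2 => rw [mul_add]; exact add_mem h1 h2
    | smul a b _ h1 => rw [smul_eq_mul, mul_left_comm]; exact Ideal.mul_mem_left _ _ h1
  set g0 := ∏ Q ∈ s, g Q with hg0
  let M : Matrix (Fin r) (Fin r) (Pl N) := Matrix.of fun i j => ∑ k, pderiv k (F i) * C (β j k)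
  have hM : eval w M.det = 1 := by
    rw [RingHom.map_det]
    have : (eval w).mapMatrix M = 1 := Matrix.ext fun i j => by
      rw [Matrix.one_apply, ← hd]
      simp [M, dP]
    rw [this, Matrix.det_one]
  refine ⟨M.det * g0, ⟨fun k => g0 * ∑ j, C (β j k) * ∑ i, M.adjugate j i * F i, fun k =>
    Ideal.mul_mem_left _ _ (Ideal.sum_mem _ fun j _ => Ideal.mul_mem_left _ _
      (Ideal.sum_mem _ fun i _ => Ideal.mul_mem_left _ _ (hF i))), fun Q hQ => ?_⟩, ?_⟩
  · obtain ⟨a, ha⟩ := Ideal.mem_span_range_iff_exists_fun.1 (h0 Q hQ)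
    set e : Fin N → Pl N := fun k => ∑ j, C (β j k) * ∑ i, M.adjugate j i * F i with he
    have heI : ∀ k, e k ∈ IZ Z := fun k => Ideal.sum_mem _ fun j _ => Ideal.mul_mem_left _ _
      (Ideal.sum_mem _ fun i _ => Ideal.mul_mem_left _ _ (hF i))
    have h1 : ∀ l, ∑ k, pderiv k (F l) * e k = M.det * F l := fun l => by
      have h2 : ∑ k, pderiv k (F l) * e k = (M * M.adjugate).mulVec F l := by
        rw [← Matrix.mulVec_mulVec]
        simp only [he, Matrix.mulVec, dotProduct, M, Matrix.of_apply, Finset.mul_sum,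
          Finset.sum_mul]
        rw [Finset.sum_comm]
        refine Finset.sum_congr rfl fun j _ => ?_
        rw [Finset.sum_comm]
        exact Finset.sum_congr rfl fun i _ => Finset.sum_congr rfl fun k _ => by ring
      rw [h2, Matrix.mul_adjugate, Matrix.smul_mulVec, Matrix.one_mulVec]
      rfl
    have h3 : ∀ k, g0 * pderiv k Q = ∑ l, a l * pderiv k (F l) +
        (∑ l, F l * pderiv k (a l) - Q * pderiv k g0) := fun k => by
      have h4 := congrArg (pderiv k) ha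
      simp only [map_sum, Derivation.leibniz, smul_eq_mul, Finset.sum_add_distrib] at h4
      linear_combination -h4
    have h5 : ∑ k, (∑ l, F l * pderiv k (a l) - Q * pderiv k g0) * e k ∈ IZ Z ^ 2 :=
      Ideal.sum_mem _ fun k _ => by
        rw [pow_two]
        exact Ideal.mul_mem_mul (sub_mem (Ideal.sum_mem _ fun l _ => Ideal.mul_mem_right _ _ (hF l))
          (Ideal.mul_mem_right _ _ hQ)) (heI k)
    refine (congrArg (· ∈ IZ Z ^ 2) ?_).mp (neg_mem h5)
    have h6 : ∑ k, pderiv k Q * (g0 * e k) = ∑ k, (g0 * pderiv k Q) * e k :=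
      Finset.sum_congr rfl fun k _ => by ring
    have h7 : ∑ k, (∑ l, a l * pderiv k (F l)) * e k = M.det * (g0 * Q) := by
      simp only [← ha, Finset.sum_mul, Finset.mul_sum]
      rw [Finset.sum_comm]
      refine Finset.sum_congr rfl fun l _ => ?_
      rw [mul_left_comm, ← h1, Finset.mul_sum]
      exact Finset.sum_congr rfl fun k _ => by ring
    change _ = M.det * g0 * Q - ∑ k, pderiv k Q * (g0 * e k)
    rw [h6]
    simp only [h3, add_mul, Finset.sum_add_distrib, h7]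
    ring
  · rw [map_mul, hM, one_mul, hg0, map_prod]
    exact Finset.prod_ne_zero_iff.2 fun Q h => hg Q (hs' Q h)

theorem exists_pt {I : Ideal (Pl N)} (h : I ≠ ⊤) : ∃ w, ∀ Q ∈ I, eval w Q = 0 := by
  obtain ⟨m, hm, hI⟩ := Ideal.exists_le_maximal I h
  obtain ⟨w, rfl⟩ := isMaximal_iff_eq_vanishingIdeal_singleton.1 hm
  exact ⟨w, fun Q hQ => (mem_vanishingIdeal_singleton_iff w Q).1 (hI hQ)⟩

/-- **Smoothness** -/
theorem smooth_of {Z : Set (Fin N → ℂ)} (zar : ∀ w, (∀ Q ∈ IZ Z, eval w Q = 0) → w ∈ Z)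
    (tc : ∀ w ∈ Z, ∀ ξ, Tg Z w ξ → Vel Z w ξ) {A : Type} [CommRing A] [Algebra ℂ A]
    (f : Pl N →ₐ[ℂ] A) (hf : Function.Surjective f) (hk : RingHom.ker f.toRingHom = IZ Z) :
    Algebra.FormallySmooth ℂ A := by
  have h1 : Rt (IZ Z) = ⊤ := by
    by_contra h
    obtain ⟨w, hw⟩ := exists_pt h
    obtain ⟨g, h2, h3⟩ := rt_loc (zar w fun Q hQ => hw Q ⟨0, fun _ => Ideal.zero_mem _,
      fun Q' hQ' => by simpa [pow_two] using Ideal.mul_mem_mul hQ hQ'⟩) (tc w (zar w fun Q hQ =>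
        hw Q ⟨0, fun _ => Ideal.zero_mem _,
          fun Q' hQ' => by simpa [pow_two] using Ideal.mul_mem_mul hQ hQ'⟩))
    exact h3 (hw g h2)
  obtain ⟨E, hE, h2⟩ : (1 : Pl N) ∈ Rt (IZ Z) := h1 ▸ Submodule.mem_top
  rw [← hk] at hE h2
  let φ : Pl N →ₐ[ℂ] Pl N ⧸ RingHom.ker f.toRingHom ^ 2 :=
    (Ideal.Quotient.mkₐ ℂ _).comp (aeval fun k => X k + -E k)
  have hφ : ∀ Q ∈ RingHom.ker f.toRingHom, φ Q = 0 := fun Q hQ => by
    refine Ideal.Quotient.eq_zero_iff_mem.2 ?_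
    change aeval (fun k => X k + -E k) Q ∈ _
    have h3 := taylor _ (fun k => (X k : Pl N)) (fun k => -E k) (fun k => neg_mem (hE k)) Q
    have h4 : ∀ Q : Pl N, aeval (fun k => (X k : Pl N)) Q = Q := aeval_X_left_apply
    refine (congrArg (· ∈ RingHom.ker f.toRingHom ^ 2) ?_).mp (add_mem h3 (h2 Q hQ))
    simp only [h4, mul_neg, Finset.sum_neg_distrib]
    ring
  let g : A →ₐ[ℂ] Pl N ⧸ RingHom.ker f.toRingHom ^ 2 :=
    (Ideal.Quotient.liftₐ _ φ hφ).comp (Ideal.quotientKerAlgEquivOfSurjective hf).symm.toAlgHom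
  have hg : ∀ Q, g (f Q) = φ Q := fun Q => by
    have : (Ideal.quotientKerAlgEquivOfSurjective hf).symm (f Q) = Ideal.Quotient.mk _ Q :=
      (AlgEquiv.symm_apply_eq _).2 rfl
    exact congrArg (Ideal.Quotient.liftₐ _ φ hφ) this
  refine Algebra.FormallySmooth.of_split f g (AlgHom.ext fun a => ?_)
  obtain ⟨Q, rfl⟩ := hf a
  rw [AlgHom.comp_apply, hg]
  have h5 : f.kerSquareLift.comp φ = f := MvPolynomial.algHom_ext fun k => by
    change f (aeval (fun k => X k + -E k) (X k)) = _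
    rw [aeval_X, map_add, map_neg, show f (E k) = 0 from hE k, neg_zero, add_zero]
  exact AlgHom.congr_fun h5 Q

/-- a set with arcs in all directions is Zariski dense -/
theorem dense_of {Z : Set (Fin N → ℂ)} {w : Fin N → ℂ} (hw : w ∈ Z) (hv : ∀ ξ, Vel Z w ξ)
    {Q : Pl N} (hQ : Q ∈ IZ Z) : Q = 0 := by
  have e : ∀ ξ, pj (Fin.elim0 : Fin 0 → Pl N) Fin.elim0 w ξ = ξ := fun ξ => funext fun k => by
    simp [pj]
  obtain ⟨g, h1, h2⟩ := krull (F := Fin.elim0) (β := Fin.elim0) hw (fun i => i.elim0)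
    (fun ξ => by rw [e]; exact hv ξ) (fun ξ => e _) hQ
  rw [range_eq_empty, Ideal.span_empty, Ideal.mem_bot, mul_eq_zero] at h2
  exact h2.resolve_left fun h => h1 (by rw [h, map_zero])

end Vale.Agent.P280Z.Br
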