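import Vale.Agent.P280Z.Br.Re
import Vale.Agent.P280Z.Br.Io
import Vale.Agent.P280Z.Cv.Pt
import Vale.Agent.P280Z.Cv.Rc
import Vale.Agent.P280Z.Cv.Frm
import Vale.Agent.P280Z.Cv.Nef

/-!
# P280, bridge: rational curves on Fano manifolds
-/

open scoped Manifold ContDiff Topology
open Set Filter Function
open Vale.Agent.P272.K Vale.Agent.P285.H281.FD Vale.Agent.P281Z
open Vale.Agent.P277 (Bd.inv)
open Vale.Agent.P280Z.Mp (BF ev In Crv)

noncomputable section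

namespace Vale.Agent.P280Z.Br

/-- two points on one rational curve -/
def On (n : ℕ) {X : Type} [TopologicalSpace X] [ChartedSpace (Cm n) X] (x y : X) : Prop :=
  ∃ F : Cm 2 → X, RC n F ∧ (∃ p, p ≠ 0 ∧ F p = x) ∧ ∃ q, q ≠ 0 ∧ F q = y

/-- **CHN**: Fano manifolds are rationally chain connected -/
def CHN : Prop := ∀ (n : ℕ) (V : Mf n), Fano n V.X → ∀ x y : V.X, Relation.ReflTransGen (On n) x y

/-- **IOT**: a rational curve of anticanonical degree at most `n + 1` -/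
def IOT : Prop := ∀ (n : ℕ) (V : Mf n), 0 < n → Fano n V.X → ∃ (F : Cm 2 → V.X) (a : ℤ),
  RC n F ∧ DegL (Bd.inv (Bd.can n V.X)) F a ∧ 0 < a ∧ a ≤ n + 1

variable {n : ℕ}

theorem fano_dat (V : Mf n) (hn : 0 < n) (h : Fano n V.X) : ∃ (D : Dat n) (c : ℕ), 0 < c ∧
    D.X = V ∧ D.H = (Bd.inv (Bd.can n D.X.X)).pow c ∧ ∃ S : CD n D.N c 1, S.Z = Zc D :=
  let ⟨_, _, _, _, _, _, _, h1, _, h2, h3, _⟩ := Cv.eqs n V _ h.1.toNonempty lb_acan h.2
  exists_dat Cv.pt_all V hn h.1 h1 h2 h3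

theorem crv {D : Dat n} {d : ℕ} {φ : BF d D.N} (h : Cr (Zc D) φ) : Crv D.P φ :=
  fun p hp => (h p hp).1.resolve_left (h p hp).2

theorem DegL.pow {X : Type} {L : Bd X} {F : Cm 2 → X} {a : ℤ} (h : DegL L F a) (c : ℕ) :
    DegL (L.pow c) F (c * a) := by
  obtain ⟨β, h1, h2⟩ := h
  refine ⟨fun i p => β i p ^ c, fun i p hp hi => ⟨(h1 i p hp hi).1.fun_pow c,
    pow_ne_zero _ (h1 i p hp hi).2.1, fun t ht => ?_⟩, fun i j p hp hi hj => ?_⟩
  · refine (congrArg (· ^ c) ((h1 i p hp hi).2.2 t ht)).trans ?_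
    rw [mul_pow, ← zpow_natCast, ← zpow_mul, neg_mul, mul_comm a]
  · exact (congrArg (· ^ c) (h2 i j p hp hi hj)).trans (mul_pow _ _ _)

theorem iot : IOT := by
  intro n V hn h
  obtain ⟨D, c, hc, rfl, hH, S, hS⟩ := fano_dat V hn h
  obtain ⟨d, φ, h1, h2, h3⟩ := S.small hc one_pos hn
  have h4 := crv (hS ▸ h1)
  obtain ⟨k1, k2⟩ := Cv.rcp_of Cv.pt_all n D d φ h4 h2
  obtain ⟨b, v, k3⟩ := Cv.frm n D d φ h4
  have k4 := Cv.degk_of Cv.pt_all n D d φ h4 b v k3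
  have k5 := Cv.degu n D.X _ _ _ _ D.lb k1 k2 (hH ▸ DegL.pow k4 c)
  refine ⟨_, _, k1, k4, ?_⟩
  generalize ∑ j, ((d : ℤ) - b j) = a at k5
  have k6 : (0 : ℤ) < c := by exact_mod_cast hc
  have k7 : (0 : ℤ) < d := by exact_mod_cast h2
  have k8 : (1 : ℤ) * d < c * (n + 2) := by exact_mod_cast h3
  constructor <;> nlinarith

theorem chn : CHN := by
  intro n V h x y
  rcases n.eq_zero_or_pos with rfl | hn
  · have := h.1
    have : DiscreteTopology V.X := by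
      refine discreteTopology_iff_isOpen_singleton.2 fun x => ?_
      refine (congrArg IsOpen ?_).mp (chartAt (Cm 0) x).open_source
      exact eq_singleton_iff_unique_mem.2 ⟨mem_chart_source _ _, fun y hy =>
        (chartAt (Cm 0) x).injOn hy (mem_chart_source _ _) (Subsingleton.elim _ _)⟩
    rw [subsingleton_of_preconnected_totallyDisconnected.elim x y]
  obtain ⟨D, c, hc, rfl, -, S, hS⟩ := fano_dat V hn h
  obtain ⟨a, ha⟩ := D.lb.cover x
  obtain ⟨b, hb⟩ := D.lb.cover y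
  have h1 := S.chain hc one_pos (hS ▸ (near ha).self_of_nhds) (hS ▸ (near hb).self_of_nhds)
    (D.lifts.nz a x ha) (D.lifts.nz b y hb)
  rw [← (D.ins a x ha).2, ← (D.ins b y hb).2]
  have h2 := (D.ins a x ha).1
  generalize D.s a x = v at h1 h2
  induction h1 using Relation.ReflTransGen.head_induction_on with
  | refl => exact .refl
  | head k _ ih =>
    obtain ⟨t, ht, rfl⟩ | ⟨d, φ, p, q, t, t', k1, hp, hq, ht, ht', rfl, rfl⟩ := k
    · exact D.cone.smul _ t h2 ht ▸ ih ((Cv.pt_all n D).smul _ h2 t ht).1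
    · have k2 := crv (hS ▸ k1)
      have k3 := ih ((Cv.pt_all n D).smul _ (k2 q hq) t' ht').1
      rw [D.cone.smul _ _ (k2 q hq) ht'] at k3
      rw [D.cone.smul _ _ (k2 p hp) ht]
      rcases d.eq_zero_or_pos with rfl | hd
      · rwa [show ev φ p = ev φ q by simp [ev]]
      · exact .head ⟨_, (Cv.rcp_of Cv.pt_all n D d φ k2 hd).1, ⟨p, hp, rfl⟩, q, hq, rfl⟩ k3

end Vale.Agent.P280Z.Br
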